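import Vale.Agent.P192Z.Tor.Psi

/-! Steinberg type groups over graded algebras with nil matrices are torsion groups. -/

namespace Vale.Agent.P192Z.Tor

theorem torsion_of_steinberg {A : Type*} [Ring A] [Algebra (ZMod 2) A] (eps : A →+* ZMod 2)
    (S : Set A) (hS : Subring.closure S = ⊤) (hSe : ∀ s ∈ S, eps s = 0)
    (theta : A →+* Polynomial A) (hth : ∀ s ∈ S, theta s = Polynomial.monomial 1 s)
    (hnil : ∀ (n : ℕ) (M : Matrix (Fin n) (Fin n) A), (∀ i j, eps (M i j) = 0) → IsNilpotent M)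
    {ι : Type*} [Fintype ι] [DecidableEq ι] (hcard : 5 ≤ Fintype.card ι) {G : Type*} [Group G]
    (x : ι → ι → A → G) (hadd : ∀ i j, i ≠ j → ∀ a b, x i j (a + b) = x i j a * x i j b)
    (hcomm : ∀ i j k l, i ≠ j → k ≠ l → j ≠ k → i ≠ l → ∀ a b,
      x i j a * x k l b = x k l b * x i j a)
    (hmul : ∀ i j k, i ≠ j → j ≠ k → i ≠ k → ∀ a b,
      x i j a * x j k b = x i k (a * b) * (x j k b * x i j a))
    (hgen : Subgroup.closure {g | ∃ i j a, i ≠ j ∧ g = x i j a} = ⊤)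
    (pi : G →* Matrix ι ι A) (hpi : ∀ i j a, i ≠ j → pi (x i j a) = 1 + Matrix.single i j a) :
    IsMulTorsion G := by
  let _ : NilAug A := ⟨eps, hnil⟩
  let St : StData A ι G := ⟨x, pi, hadd, hcomm, hmul, hgen, hpi⟩
  have h5 : ∀ s : Finset ι, s.card ≤ 4 → ∃ m, m ∉ s := fun s hs =>
    exists_notMem_of_card_lt s (by omega)
  intro g
  obtain ⟨n, hn, hg⟩ := St.exists_pow_mem_ker g
  refine IsOfFinOrder.of_pow (n := n) ?_ hn.ne'
  by_contra hinf
  obtain ⟨D, l, h1, h2, h3⟩ := St.exists_word h5 hS hSe hg hinf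
  exact h3 (bsum_eq_zero_of_homog (s := fun p => p.2) theta D (by omega) (fun p => p.1)
    (fun p hp => (h1 p hp).1) (fun p hp => hth _ (h1 p hp).2) h2)

end Vale.Agent.P192Z.Tor
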