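import Vale.Agent.P192Z.Tor.Step

/-! Extension of a datum along an arbitrary embedding of index sets. -/

namespace Vale.Agent.P192Z.Tor

open Matrix NilAug

set_option linter.unusedSectionVars false

variable {A : Type*} [Ring A] [Algebra (ZMod 2) A] [NilAug A]
variable {I J : Type*} [Fintype I] [DecidableEq I] [Fintype J] [DecidableEq J]

omit [Algebra (ZMod 2) A] [Fintype I] in
theorem eps_single (j m : I) {r : A} (hr : eps r = 0) (a b : I) : eps ((single j m r) a b) = 0 := by
  simp only [single, of_apply]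
  split_ifs <;> simp [hr]

theorem fact3_parD (D : Datum A I) (h5 : 5 ≤ Fintype.card J) (jj : J → I ↪ J)
    (hjj : ∀ i x, x ∈ Set.range (jj i) ↔ x ≠ i) : Fact3 fun i => parD D (jj i) := by
  intro i j k l hij hjk hjl p hp
  obtain ⟨m, hm⟩ := exists_notMem_of_card_lt ({i, j, k, l} : Finset J)
    (lt_of_le_of_lt Finset.card_le_four h5)
  simp only [Finset.mem_insert, Finset.mem_singleton, not_or] at hm
  obtain ⟨hmi, hmj, hmk, hml⟩ := hm
  have col : ∀ (t : J) (g : Gam A J), (∀ a, g.1 a t = (1 : Matrix J J A) a t) → g ∈ Par (jj t) := by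
    intro t g hg a b hb
    rw [hjj, not_not] at hb
    rw [hb, hg]
  set w := p⁻¹ with hw
  obtain ⟨u', hu1, hu2⟩ := exists_inv_of_eps (eps_diag w j)
  set r := w.1 j j - 1 with hr
  have hr0 : eps r = 0 := by rw [hr, map_sub, eps_diag, map_one, sub_self]
  let d0 : Gam A J := ⟨1 + (single j j r + single j m r + single m j r + single m m r),
    one_add_mem_Gam fun a b => by
      simp only [Matrix.add_apply, map_add, eps_single _ _ hr0, add_zero]⟩
  let t : J → A := fun a => (w.1 a j - (single m j r) a j) * u'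
  let d1 : Gam A J := ⟨1 + of fun a b => if a ≠ j ∧ b = j then t a else 0,
    one_add_mem_Gam fun a b => by
      simp only [of_apply]
      split_ifs with h
      · simp only [t, map_mul, map_sub, eps_of_ne w h.1, eps_single _ _ hr0, sub_zero, zero_mul]
      · exact map_zero _⟩
  have hd0 : ∀ s, s ≠ j → s ≠ m → d0 ∈ parD D (jj s) := by
    intro s hsj hsm
    refine ⟨col s d0 fun a => ?_, ?_⟩
    · simp [d0, single, Ne.symm hsj, Ne.symm hsm]
    · obtain ⟨j', hj'⟩ := (hjj s j).mpr (Ne.symm hsj)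
      obtain ⟨m', hm'⟩ := (hjj s m).mpr (Ne.symm hsm)
      refine D.rank_one_mem _ (j := j') (m := m') (fun e => hmj (by rw [← hj', ← hm', e])) hr0 ?_
      rw [coe_res]
      simp only [d0]
      rw [← hj', ← hm']
      simp only [submatrix_add, Pi.add_apply, submatrix_single, submatrix_one _ (jj s).injective]
  have hd1 : ∀ s, s ≠ j → d1 ∈ parD D (jj s) := by
    intro s hsj
    refine mem_parD_of_supp D _ (· ≠ j) d1 (fun a b hab => ?_) (col s d1 fun a => ?_)
    · have : ¬(a ≠ j ∧ b = j) := by simpa using hab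
      simp only [d1, Matrix.add_apply, of_apply, if_neg this, add_zero]
    · simp [d1, hsj]
  have hd : ∀ s, s ≠ j → s ≠ m → d1 * d0 ∈ parD D (jj s) := fun s h1 h2 =>
    (parD D (jj s)).mul_mem (hd1 s h1) (hd0 s h1 h2)
  have hcol : ∀ a, (d1 * d0).1 a j = w.1 a j := by
    intro a
    have e0 : ∀ c, d0.1 c j = (single j j (w.1 j j) + single m j r : Matrix J J A) c j := by
      intro c
      by_cases hc : j = c
      · subst hc
        simp [d0, single, hmj, hr]
      · simp [d0, single, hmj, hc, one_apply_ne (Ne.symm hc)]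
    have e1 : (d1 * d0).1 a j = (d1.1 * (single j j (w.1 j j) + single m j r)) a j := by
      rw [coe_mul_Gam, Matrix.mul_apply, Matrix.mul_apply]
      exact Finset.sum_congr rfl fun c _ => by rw [e0]
    rw [e1, Matrix.mul_add, Matrix.add_apply, mul_single_apply_same, mul_single_apply_same]
    by_cases ha : a = j
    · subst ha
      simp [d1, one_apply_ne (Ne.symm hmj), hmj]
    · have e2 : d1.1 a j = t a := by simp [d1, ha, one_apply_ne ha]
      have e3 : d1.1 a m * r = (single m j r) a j := by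
        by_cases ham : m = a
        · subst ham
          simp [d1, hmj]
        · simp [d1, hmj, single, ham, one_apply_ne (Ne.symm ham)]
      rw [e2, e3, mul_assoc, hu2, mul_one, sub_add_cancel]
  have ha : p * (d1 * d0) ∈ parD D (jj i) :=
    (parD D (jj i)).mul_mem hp (hd i hij (Ne.symm hmi))
  have ha' : p * (d1 * d0) ∈ Par (jj j) := by
    refine col j _ fun a => ?_
    have : (p * (d1 * d0)).1 a j = (p * w).1 a j := by
      rw [coe_mul_Gam p, coe_mul_Gam p w, Matrix.mul_apply, Matrix.mul_apply]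
      exact Finset.sum_congr rfl fun c _ => by rw [hcol]
    rw [this, hw, mul_inv_cancel, coe_one_Gam]
  refine ⟨p * (d1 * d0), (d1 * d0)⁻¹, ha, (parD_consistent D (hjj i) (hjj j)).1 _ ha ha',
    (parD D (jj i)).inv_mem (hd i hij (Ne.symm hmi)),
    (parD D (jj k)).inv_mem (hd k (Ne.symm hjk) (Ne.symm hmk)),
    (parD D (jj l)).inv_mem (hd l (Ne.symm hjl) (Ne.symm hml)), by group⟩

omit [Fintype J] in
theorem exists_three_ne (h5 : ∀ s : Finset J, s.card ≤ 4 → ∃ m, m ∉ s) (b : J) :
    ∃ s₁ s₂ s₃, s₁ ≠ s₂ ∧ s₁ ≠ s₃ ∧ s₂ ≠ s₃ ∧ s₁ ≠ b ∧ s₂ ≠ b ∧ s₃ ≠ b := by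
  obtain ⟨s₁, h1⟩ := h5 {b} (by simp)
  obtain ⟨s₂, h2⟩ := h5 {b, s₁} (Finset.card_le_two.trans (by norm_num))
  obtain ⟨s₃, h3⟩ := h5 {b, s₁, s₂} (Finset.card_le_three.trans (by norm_num))
  simp only [Finset.mem_insert, Finset.mem_singleton, not_or] at h1 h2 h3
  exact ⟨s₁, s₂, s₃, Ne.symm h2.2, Ne.symm h3.2.1, Ne.symm h3.2.2, h1, h2.1, h3.1⟩

theorem transvection_mul_self {a b : J} (hab : a ≠ b) (c : ZMod 2) :
    (1 + single a b c) * (1 + single a b c) = 1 := by
  rw [add_mul, one_mul, mul_add, mul_one, single_mul_single_of_ne _ _ _ _ (Ne.symm hab), add_zero,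
    add_assoc, add_self_eq, add_zero]

/-- Induction over pairs of mutually inverse matrices over the field with two elements. -/
theorem gl_induction (Q : ∀ u v : Matrix J J (ZMod 2), v * u = 1 → Prop)
    (h1 : ∀ h, Q 1 1 h)
    (ht : ∀ a b c, a ≠ b → ∀ h, Q (1 + single a b c) (1 + single a b c) h)
    (hm : ∀ u v h u' v' h' h'', Q u v h → Q u' v' h' → Q (u' * u) (v * v') h'')
    (u v : Matrix J J (ZMod 2)) (h : v * u = 1) : Q u v h := by
  have hdet : u.det ≠ 0 := by
    intro h0
    have := congrArg det h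
    rw [det_mul, h0, mul_zero, det_one] at this
    exact zero_ne_one this
  revert v
  refine diagonal_transvection_induction_of_det_ne_zero
    (fun u => ∀ v (h : v * u = 1), Q u v h) u hdet ?_ ?_ ?_
  · intro d hd v h
    have hd1 : diagonal d = 1 := by
      rw [det_diagonal, Finset.prod_ne_zero_iff] at hd
      rw [← diagonal_one]
      congr 1
      funext i
      have := hd i (Finset.mem_univ _)
      revert this
      generalize d i = z
      revert z
      decide
    have hv : v = 1 := by rwa [hd1, mul_one] at h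
    subst hv
    revert h
    rw [hd1]
    exact h1
  · intro t v h
    have e : t.toMatrix = 1 + single t.i t.j t.c := rfl
    have hv : v = 1 + single t.i t.j t.c := by
      have e2 := transvection_mul_self t.hij t.c
      rw [← e] at e2 ⊢
      rw [← mul_one v, ← e2, ← mul_assoc, h, one_mul]
    subst hv
    exact ht _ _ _ t.hij h
  · intro u₁ u₂ d₁ d₂ q₁ q₂ v h
    have i₁ := nonsing_inv_mul u₁ (Ne.isUnit d₁)
    have i₂ := nonsing_inv_mul u₂ (Ne.isUnit d₂)
    have hv : v = u₂⁻¹ * u₁⁻¹ := by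
      rw [← mul_one v, ← mul_eq_one_comm.mp (split_mul i₂ i₁), ← mul_assoc, h, one_mul]
    subst hv
    exact hm _ _ i₂ _ _ i₁ h (q₂ _ i₂) (q₁ _ i₁)

theorem exists_extends_succ (D : Datum A I) (h4 : 4 ≤ Fintype.card I)
    (hc : Fintype.card J = Fintype.card I + 1) (j : I ↪ J) : ∃ D' : Datum A J, Extends j D D' := by
  classical
  have ex : ∀ i : J, ∃ f : I ↪ J, ∀ x, x ∈ Set.range f ↔ x ≠ i := by
    intro i
    have : Fintype.card I = Fintype.card {x : J // x ≠ i} := by
      rw [Fintype.card_subtype_compl, Fintype.card_subtype_eq, hc, Nat.add_sub_cancel]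
    let e := Fintype.equivOfCardEq this
    refine ⟨e.toEmbedding.trans (Function.Embedding.subtype _), fun x => ⟨?_, fun hx => ?_⟩⟩
    · rintro ⟨a, rfl⟩
      exact (e a).2
    · exact ⟨e.symm ⟨x, hx⟩, by simp⟩
  choose jj hjj using ex
  have h5 : ∀ s : Finset J, s.card ≤ 4 → ∃ m, m ∉ s := fun s hs =>
    exists_notMem_of_card_lt s (by omega)
  have hF := fact3_parD D (by omega) jj hjj
  let β : Gam A J → Gam A J → ℚ := fun g h =>
    if hx : ∃ i, g ∈ parD D (jj i) ∧ h ∈ parD D (jj i) then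
      D.β (res (jj hx.choose) g) (res (jj hx.choose) h) else 0
  have hβ : ∀ i, ∀ g ∈ parD D (jj i), ∀ h ∈ parD D (jj i),
      β g h = D.β (res (jj i) g) (res (jj i) h) := by
    intro i g hg h hh
    have hx : ∃ i, g ∈ parD D (jj i) ∧ h ∈ parD D (jj i) := ⟨i, hg, hh⟩
    simp only [β, dif_pos hx]
    exact (parD_consistent D (hjj _) (hjj i)).2 g hx.choose_spec.1 hg.1 h hx.choose_spec.2 hh.1
  have hne : Nonempty J := Fintype.card_pos_iff.mp (by omega)
  obtain ⟨i₀⟩ := hne
  obtain ⟨s₁, s₂, s₃, h12, h13, h23, h10, h20, h30⟩ := exists_three_ne h5 i₀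
  obtain ⟨B, hB, hB'⟩ := hF.exists_glue_all isMulTorsion_Gam (β := β)
    (fun i => (isCan_parD D (jj i)).congr (hβ i)) h12 h13 h23 h10 h20 h30
  have hle : ∀ i, parD D (jj i) ≤ ⨆ m, parD D (jj m) := fun i =>
    le_iSup (fun m => parD D (jj m)) i
  have hinv : ∀ u v (h : v * u = 1),
      (∀ g ∈ ⨆ m, parD D (jj m), sp u v h g ∈ ⨆ m, parD D (jj m)) ∧
      ∀ g ∈ ⨆ m, parD D (jj m), ∀ g' ∈ ⨆ m, parD D (jj m),
        B (sp u v h g) (sp u v h g') = B g g' := by
    refine gl_induction _ (fun h => ?_) (fun a b c hab h => ?_) ?_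
    · simp only [sp_one]
      exact ⟨fun g hg => hg, fun _ _ _ _ => trivial⟩
    · obtain ⟨t₁, t₂, t₃, k12, k13, k23, k1, k2, k3⟩ := exists_three_ne h5 b
      have hs : ∀ s, s ≠ b → ColStd (jj s) (1 + single a b c) := by
        intro s hs x y hy
        rw [hjj, not_not] at hy
        subst hy
        simp [single, Ne.symm hs]
      have hm : ∀ g ∈ ⨆ m, parD D (jj m), sp _ _ h g ∈ ⨆ m, parD D (jj m) := by
        intro g hg
        obtain ⟨g₁, hg₁, g₂, hg₂, rfl⟩ := hF.exists_mul k12 k13 k23 hg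
        rw [map_mul]
        exact Subgroup.mul_mem _ (hle _ ((sp_parD D h (hs _ k1) (hs _ k1)).1 _ hg₁))
          (hle _ ((sp_parD D h (hs _ k2) (hs _ k2)).1 _ hg₂))
      have z : ∀ s, s ≠ b → ∀ g ∈ parD D (jj s), ∀ g' ∈ parD D (jj s),
          B (sp _ _ h g) (sp _ _ h g') - B g g' = 0 := by
        intro s hsb g hg g' hg'
        obtain ⟨q1, q2⟩ := sp_parD D h (hs _ hsb) (hs _ hsb)
        rw [hB' s _ (q1 g hg) _ (q1 g' hg'), hB' s g hg g' hg', hβ s _ (q1 g hg) _ (q1 g' hg'),
          hβ s g hg g' hg', q2 g hg g' hg', sub_self]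
      refine ⟨hm, fun g hg g' hg' => sub_eq_zero.mp ?_⟩
      exact hF.eq_zero isMulTorsion_Gam
        ((hB.comap (sp _ _ h) hm fun x _ y _ => map_mul _ x y).sub hB) k12 k13 k23
        (z _ k1) (z _ k2) (z _ k3) g hg g' hg'
    · intro u v h u' v' h' h'' q q'
      refine ⟨fun g hg => ?_, fun g hg g' hg' => ?_⟩
      · rw [← sp_sp u v h u' v' h']
        exact q'.1 _ (q.1 g hg)
      · rw [← sp_sp u v h u' v' h', ← sp_sp u v h u' v' h', q'.2 _ (q.1 g hg) _ (q.1 g' hg'),
          q.2 g hg g' hg']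
  have hemb : ∀ g ∈ D.H, emb (jj i₀) g ∈ parD D (jj i₀) := fun g hg =>
    ⟨emb_mem_Par _ g, by rwa [res_emb]⟩
  refine ⟨⟨⨆ m, parD D (jj m), B, hB, ?_, fun u v h => (hinv u v h).1,
    fun u v h => (hinv u v h).2⟩, Extends.of_emb (j := jj i₀) ⟨fun g => ⟨fun hg => ?_, fun hg =>
      hle i₀ (hemb g hg)⟩, fun g hg h hh => ?_⟩ j⟩
  · intro g a b r hab hg
    refine hle a (mem_parD_of_supp D _ (· = a) g (fun x y hxy => ?_) fun x y hy => ?_)
    · have : ¬(a = x ∧ b = y) := by
        rintro ⟨rfl, rfl⟩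
        exact hxy ⟨rfl, Ne.symm hab⟩
      rw [hg, Matrix.add_apply, single, of_apply, if_neg this, add_zero]
    · rw [hjj, not_not] at hy
      subst hy
      simp [hg, single, Ne.symm hab]
  · obtain ⟨g₁, hg₁, g₂, hg₂, e⟩ := hF.exists_mul (Ne.symm h10) (Ne.symm h20) h12 hg
    have h2 : g₂ ∈ Par (jj i₀) := by
      have := (Par (jj i₀)).mul_mem ((Par (jj i₀)).inv_mem hg₁.1) (emb_mem_Par (jj i₀) g)
      rwa [e, inv_mul_cancel_left] at this
    have h3 := (parD D (jj i₀)).mul_mem hg₁ ((parD_consistent D (hjj _) (hjj i₀)).1 _ hg₂ h2)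
    rw [← e] at h3
    have h4 := h3.2
    rwa [res_emb] at h4
  · change B _ _ = _
    rw [hB' i₀ _ (hemb g hg) _ (hemb h hh), hβ i₀ _ (hemb g hg) _ (hemb h hh), res_emb, res_emb]

theorem exists_extends_aux.{u} (D : Datum A I) (h4 : 4 ≤ Fintype.card I) (n : ℕ) :
    ∀ (J : Type u) [Fintype J] [DecidableEq J] (j : I ↪ J), Fintype.card J = Fintype.card I + n →
      ∃ D' : Datum A J, Extends j D D' := by
  induction n with
  | zero =>
    intro J _ _ j hc
    exact exists_extends_of_bijective D j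
      ((Fintype.bijective_iff_injective_and_card j).mpr ⟨j.injective, hc.symm⟩).2
  | succ n ih =>
    intro J _ _ j hc
    have : ∃ i, i ∉ Set.range j := by
      by_contra hcon
      push Not at hcon
      have := Fintype.card_le_of_surjective j hcon
      omega
    obtain ⟨i, hi⟩ := this
    have hc' : Fintype.card {x : J // x ≠ i} = Fintype.card I + n := by
      rw [Fintype.card_subtype_compl, Fintype.card_subtype_eq, hc]
      omega
    obtain ⟨D₁, h₁⟩ := ih {x : J // x ≠ i}
      (j.codRestrict {x | x ≠ i} fun a e => hi ⟨a, e⟩) hc'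
    obtain ⟨D₂, h₂⟩ := exists_extends_succ D₁ (J := J) (by omega) (by omega)
      (Function.Embedding.subtype _)
    exact ⟨D₂, (h₁.trans h₂).of_emb j⟩

theorem exists_extends (D : Datum A I) (h4 : 4 ≤ Fintype.card I) (j : I ↪ J) :
    ∃ D' : Datum A J, Extends j D D' :=
  exists_extends_aux D h4 (Fintype.card J - Fintype.card I) J j
    (by have := Fintype.card_le_of_embedding j; omega)

end Vale.Agent.P192Z.Tor
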