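import Mathlib.GroupTheory.NoncommPiCoprod
import Mathlib.GroupTheory.GroupAction.Quotient
import Vale.Agent.P192Z.Tor.Ext

/-! The kernel of the map from a Steinberg type group to matrices is central. -/

namespace Vale.Agent.P192Z.Tor

open Matrix NilAug

set_option linter.unusedSectionVars false

/-- A group with Steinberg generators and a map to matrices. -/
structure StData (A ι G : Type*) [Ring A] [Fintype ι] [DecidableEq ι] [Group G] where
  x : ι → ι → A → G
  pi : G →* Matrix ι ι A
  add : ∀ i j, i ≠ j → ∀ a b, x i j (a + b) = x i j a * x i j b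
  comm : ∀ i j k l, i ≠ j → k ≠ l → j ≠ k → i ≠ l → ∀ a b, x i j a * x k l b = x k l b * x i j a
  mul : ∀ i j k, i ≠ j → j ≠ k → i ≠ k → ∀ a b,
    x i j a * x j k b = x i k (a * b) * (x j k b * x i j a)
  gen : Subgroup.closure {g | ∃ i j a, i ≠ j ∧ g = x i j a} = ⊤
  pi_x : ∀ i j a, i ≠ j → pi (x i j a) = 1 + single i j a

theorem exists_prod {A κ G : Type*} [AddCommMonoid A] [Fintype κ] [DecidableEq κ] [Group G]
    (f : κ → A → G) (hadd : ∀ k a b, f k (a + b) = f k a * f k b)
    (hc : ∀ k l, k ≠ l → ∀ a b, f k a * f l b = f l b * f k a) :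
    ∃ F : (κ → A) → G, (∀ v w, F (v + w) = F v * F w) ∧ ∀ k a, F (Pi.single k a) = f k a := by
  let φ : κ → Multiplicative A →* G := fun k =>
    MonoidHom.mk' (fun a => f k a.toAdd) fun a b => hadd k _ _
  have hφ : Pairwise fun k l => ∀ a b, Commute (φ k a) (φ l b) := fun k l h a b => hc k l h _ _
  refine ⟨fun v => MonoidHom.noncommPiCoprod φ hφ fun k => Multiplicative.ofAdd (v k),
    fun v w => ?_, fun k a => ?_⟩
  · rw [← map_mul]
    rfl
  · have := MonoidHom.noncommPiCoprod_mulSingle (hcomm := hφ) φ k (Multiplicative.ofAdd a)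
    refine Eq.trans ?_ this
    congr 1

theorem map_zero_of_add {V G : Type*} [AddZeroClass V] [Group G] {F : V → G}
    (hF : ∀ v w, F (v + w) = F v * F w) : F 0 = 1 := by
  have := hF 0 0
  rw [add_zero] at this
  exact left_eq_mul.mp this

variable {A ι G : Type*} [Ring A] [Algebra (ZMod 2) A] [Fintype ι] [DecidableEq ι] [Group G]

namespace StData

variable (S : StData A ι G)

theorem x_zero {i j : ι} (h : i ≠ j) : S.x i j 0 = 1 := map_zero_of_add (S.add i j h)

theorem x_sq {i j : ι} (h : i ≠ j) (a : A) : S.x i j a * S.x i j a = 1 := by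
  rw [← S.add i j h, add_self_eq, S.x_zero h]

theorem x_inv {i j : ι} (h : i ≠ j) (a : A) : (S.x i j a)⁻¹ = S.x i j a :=
  inv_eq_of_mul_eq_one_left (S.x_sq h a)

theorem mul' {i j k : ι} (hij : i ≠ j) (hjk : j ≠ k) (hik : i ≠ k) (a b : A) :
    S.x j k b * S.x i j a = S.x i k (a * b) * (S.x i j a * S.x j k b) := by
  rw [S.mul i j k hij hjk hik, ← mul_assoc, S.x_sq hik, one_mul]

theorem closure_induction {T : ι → ι → Prop} {p : G → Prop} (h1 : p 1)
    (hx : ∀ i j a g, i ≠ j → T i j → p g → p (S.x i j a * g)) {g : G}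
    (hg : g ∈ Subgroup.closure {g | ∃ i j a, i ≠ j ∧ T i j ∧ g = S.x i j a}) : p g := by
  induction hg using Subgroup.closure_induction_left with
  | one => exact h1
  | mul_left s hs g hg ih =>
    obtain ⟨i, j, a, hij, ht, rfl⟩ := hs
    exact hx i j a g hij ht ih
  | inv_mul_cancel s hs g hg ih =>
    obtain ⟨i, j, a, hij, ht, rfl⟩ := hs
    rw [S.x_inv hij]
    exact hx i j a g hij ht ih

theorem induction_left {p : G → Prop} (h1 : p 1)
    (hx : ∀ i j a g, i ≠ j → p g → p (S.x i j a * g)) (g : G) : p g := by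
  refine S.closure_induction (T := fun _ _ => True) h1 (fun i j a g h _ => hx i j a g h) ?_
  simp only [true_and]
  rw [S.gen]
  trivial

theorem exists_col (i : ι) : ∃ F : (ι → A) → G, (∀ v w, F (v + w) = F v * F w) ∧
    ∀ k a, F (Pi.single k a) = if k = i then 1 else S.x k i a := by
  refine exists_prod _ (fun k a b => ?_) fun k l _ a b => ?_
  · split_ifs with h
    · simp
    · exact S.add k i h a b
  · split_ifs with h h' h'
    · rfl
    · simp
    · simp
    · exact S.comm k i l i h h' (Ne.symm h') h a b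

theorem exists_row (i : ι) : ∃ F : (ι → A) → G, (∀ v w, F (v + w) = F v * F w) ∧
    ∀ k a, F (Pi.single k a) = if k = i then 1 else S.x i k a := by
  refine exists_prod _ (fun k a b => ?_) fun k l _ a b => ?_
  · split_ifs with h
    · simp
    · exact S.add i k (Ne.symm h) a b
  · split_ifs with h h' h'
    · rfl
    · simp
    · simp
    · exact S.comm i k i l (Ne.symm h) (Ne.symm h') h (Ne.symm h') a b

/-- The product of the generators in one column. -/
noncomputable def col (i : ι) : (ι → A) → G := (S.exists_col i).choose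

theorem col_add (i : ι) (v w : ι → A) : S.col i (v + w) = S.col i v * S.col i w :=
  (S.exists_col i).choose_spec.1 v w

theorem col_single {i k : ι} (h : k ≠ i) (a : A) : S.col i (Pi.single k a) = S.x k i a := by
  rw [col, (S.exists_col i).choose_spec.2, if_neg h]

theorem col_self (i : ι) (a : A) : S.col i (Pi.single i a) = 1 := by
  rw [col, (S.exists_col i).choose_spec.2, if_pos rfl]

theorem col_zero (i : ι) : S.col i 0 = 1 := map_zero_of_add (S.col_add i)

theorem x_mul_col {i a b : ι} (hab : a ≠ b) (ha : a ≠ i) (hb : b ≠ i) (c : A) (v : ι → A) :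
    S.x a b c * S.col i v = S.col i (Pi.single a (c * v b) + v) * S.x a b c := by
  induction v using Pi.single_induction with
  | zero => simp [S.col_zero]
  | add v w hv hw =>
    rw [S.col_add, ← mul_assoc, hv, mul_assoc, hw, ← mul_assoc, ← S.col_add, Pi.add_apply, mul_add,
      Pi.single_add, add_add_add_comm]
  | single k d =>
    by_cases hk : k = b
    · subst hk
      rw [S.col_add, Pi.single_eq_same, S.col_single ha, S.col_single hb, S.mul a k i hab hb ha,
        mul_assoc]
    · rw [Pi.single_eq_of_ne (Ne.symm hk), mul_zero, Pi.single_zero, zero_add]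
      by_cases hi : k = i
      · subst hi
        simp [S.col_self]
      · rw [S.col_single hi, S.comm a b k i hab hi (Ne.symm hk) ha]

section Action

variable {Y : Type*} [MulAction G Y]

theorem sm_comm {i j k l : ι} (hij : i ≠ j) (hkl : k ≠ l) (hjk : j ≠ k) (hil : i ≠ l) (a b : A)
    (y : Y) : S.x i j a • S.x k l b • y = S.x k l b • S.x i j a • y := by
  rw [← mul_smul, ← mul_smul, S.comm i j k l hij hkl hjk hil]

theorem sm_mul {i j k : ι} (hij : i ≠ j) (hjk : j ≠ k) (hik : i ≠ k) (a b : A) (y : Y) :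
    S.x i j a • S.x j k b • y = S.x i k (a * b) • S.x j k b • S.x i j a • y := by
  rw [← mul_smul, S.mul i j k hij hjk hik, mul_smul, mul_smul]

theorem sm_mul' {i j k : ι} (hij : i ≠ j) (hjk : j ≠ k) (hik : i ≠ k) (a b : A) (y : Y) :
    S.x j k b • S.x i j a • y = S.x i k (a * b) • S.x i j a • S.x j k b • y := by
  rw [← mul_smul, S.mul' hij hjk hik, mul_smul, mul_smul]

theorem sm_sq {i j : ι} (hij : i ≠ j) (a : A) (y : Y) : S.x i j a • S.x i j a • y = y := by
  rw [← mul_smul, S.x_sq hij, one_smul]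

/-- The point is fixed by all generators outside the column `i`. -/
def Fix (i : ι) (y : Y) : Prop := ∀ a b c, a ≠ b → b ≠ i → S.x a b c • y = y

/-- Transport between fixed points. -/
def tr (i j : ι) (s : Aˣ) (y : Y) : Y := S.x i j ↑s⁻¹ • S.x j i ↑s • y

theorem fix_col {b k l : ι} {y : Y} (hy : ∀ a c, a ≠ b → S.x a b c • y = y) (hk : b ≠ k)
    (hkl : k ≠ l) (s : A) : ∀ a c, a ≠ b → S.x a b c • S.x k l s • y = S.x k l s • y := by
  intro a c hab
  by_cases ha : a = l
  · subst ha
    rw [S.sm_mul' hkl hab (Ne.symm hk), hy a c hab, S.sm_comm (Ne.symm hk) hkl hk hkl,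
      hy k _ (Ne.symm hk)]
  · rw [S.sm_comm hab hkl hk ha, hy a c hab]

variable {S}

theorem Fix.tr (h5 : ∀ s : Finset ι, s.card ≤ 4 → ∃ m, m ∉ s) {i j : ι} (hij : i ≠ j) {y : Y}
    (hy : S.Fix i y) (s : Aˣ) : S.Fix j (S.tr i j s y) := by
  have h1 : ∀ b, b ≠ i → b ≠ j → ∀ a c, a ≠ b → S.x a b c • S.tr i j s y = S.tr i j s y :=
    fun b hi hj => S.fix_col (S.fix_col (fun a c h => hy a b c h hi) hj (Ne.symm hij) _) hi hij _
  have h2 : ∀ a c, a ≠ i → a ≠ j → S.x a i c • S.tr i j s y = S.tr i j s y := by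
    intro a c hi hj
    unfold StData.tr
    rw [S.sm_mul hi hij hj, S.sm_comm hj hij (Ne.symm hij) hj,
      S.sm_comm hi (Ne.symm hij) hij hi, S.sm_mul hj (Ne.symm hij) hi,
      S.sm_comm hj hi (Ne.symm hj) hi, hy a j _ hj (Ne.symm hij), mul_assoc, s.inv_mul, mul_one,
      S.sm_comm hi (Ne.symm hij) hij hi, S.sm_sq hi]
  intro a b c hab hb
  by_cases hi : b = i
  · subst hi
    by_cases ha : a = j
    · subst ha
      obtain ⟨k, hk⟩ := h5 {a, b} (Finset.card_le_two.trans (by norm_num))
      simp only [Finset.mem_insert, Finset.mem_singleton, not_or] at hk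
      have := S.sm_mul (Ne.symm hk.1) hk.2 hab c 1 (S.tr b a s y)
      rw [h1 k hk.2 hk.1 a c (Ne.symm hk.1), h2 k 1 hk.2 hk.1, h1 k hk.2 hk.1 a c (Ne.symm hk.1),
        mul_one] at this
      exact this.symm
    · exact h2 a c hab ha
  · exact h1 b hi hb a c hab

theorem tr_tr {i j : ι} (hij : i ≠ j) (s : Aˣ) (y : Y) : S.tr j i s⁻¹ (S.tr i j s y) = y := by
  unfold StData.tr
  rw [inv_inv, S.sm_sq hij, S.sm_sq (Ne.symm hij)]

theorem Fix.tri {i j k : ι} (hij : i ≠ j) (hjk : j ≠ k) (hik : i ≠ k) {y : Y} (hy : S.Fix i y)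
    (s t : Aˣ) : S.tr j k t (S.tr i j s y) = S.tr i k (t * s) y := by
  have hji := Ne.symm hij
  have hkj := Ne.symm hjk
  have hki := Ne.symm hik
  unfold StData.tr
  rw [S.sm_comm hkj hij hji hkj, S.sm_mul hkj hji hki, hy k j _ hkj hji, S.sm_mul' hij hjk hik,
    S.sm_mul hjk hki hji, S.sm_comm hjk hji hkj hji, hy j k _ hjk hki, ← mul_assoc, t.inv_mul,
    one_mul, S.sm_comm hji hki hik hji, S.sm_sq hji, S.sm_mul' hki hij hkj, hy i j _ hij hji,
    S.sm_comm hkj hki hjk hki, hy k j _ hkj hji, _root_.mul_inv_rev, Units.val_mul, Units.val_mul]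

/-- The point is the chosen lift of the vector `u e_i`. -/
def Pt (S : StData A ι G) (o : ι) (y₀ : Y) (i : ι) (u : Aˣ) (y : Y) : Prop :=
  ∀ k, k ≠ o → k ≠ i → y = S.tr k i u (S.tr o k 1 y₀)

variable (h5 : ∀ s : Finset ι, s.card ≤ 4 → ∃ m, m ∉ s) {o : ι} {y₀ : Y} (hy : S.Fix o y₀)
include h5

theorem exists_ne₃ (a b c : ι) : ∃ k, k ≠ a ∧ k ≠ b ∧ k ≠ c := by
  obtain ⟨k, hk⟩ := h5 {a, b, c} (Finset.card_le_three.trans (by norm_num))
  simp only [Finset.mem_insert, Finset.mem_singleton, not_or] at hk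
  exact ⟨k, hk⟩

include hy

theorem exists_pt (i : ι) (u : Aˣ) : ∃ y, S.Pt o y₀ i u y := by
  obtain ⟨k, ho, hi, -⟩ := exists_ne₃ h5 o i i
  refine ⟨S.tr k i u (S.tr o k 1 y₀), fun k' ho' hi' => ?_⟩
  by_cases hk : k = k'
  · rw [hk]
  · have e := hy.tri (Ne.symm ho') (Ne.symm hk) (Ne.symm ho) 1 1
    rw [mul_one] at e
    rw [← e, (hy.tr h5 (Ne.symm ho') 1).tri (Ne.symm hk) hi hi', mul_one]

theorem Pt.fix {i : ι} {u : Aˣ} {y : Y} (h : S.Pt o y₀ i u y) : S.Fix i y := by
  obtain ⟨k, ho, hi, -⟩ := exists_ne₃ h5 o i i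
  rw [h k ho hi]
  exact (hy.tr h5 (Ne.symm ho) 1).tr h5 hi u

theorem Pt.cons {i j : ι} (hij : i ≠ j) {u u' : Aˣ} {y y' : Y} (h : S.Pt o y₀ i u y)
    (h' : S.Pt o y₀ j u' y') : S.x j i ↑(u' * u⁻¹) • y = S.x i j ↑(u * u'⁻¹) • y' := by
  obtain ⟨k, ho, hi, hj⟩ := exists_ne₃ h5 o i j
  have e := (hy.tr h5 (Ne.symm ho) 1).tri hi hij hj u (u' * u⁻¹)
  rw [inv_mul_cancel_right, ← h k ho hi, ← h' k ho hj] at e
  rw [← e]
  unfold StData.tr
  rw [_root_.mul_inv_rev, inv_inv, S.sm_sq hij]

omit h5 hy in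
theorem Fix.col_col {i j : ι} (hij : i ≠ j) {y : Y} (hy : S.Fix j y) (z w : ι → A) :
    S.col i (fun a => if a = i ∨ a = j then 0 else z a) • S.col j w • y =
      S.col j ((fun a => if a = i ∨ a = j then 0 else z a * w i) + w) • y := by
  induction z using Pi.single_induction generalizing w with
  | zero =>
    simp only [Pi.zero_apply, ite_self, zero_mul]
    rw [← Pi.zero_def, S.col_zero, one_smul, zero_add]
  | add z z' hz hz' =>
    have e : (fun a => if a = i ∨ a = j then 0 else (z + z') a) =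
        (fun a => if a = i ∨ a = j then 0 else z a) +
          fun a => if a = i ∨ a = j then 0 else z' a := by
      funext a
      simp only [Pi.add_apply]
      split_ifs <;> simp
    rw [e, S.col_add, mul_smul, hz', hz]
    congr 2
    funext a
    simp only [Pi.add_apply, true_or, if_true, zero_add]
    split_ifs <;> simp [add_mul, add_assoc]
  | single k c =>
    by_cases hk : k = i ∨ k = j
    · have e : ∀ f : A → A, f 0 = 0 →
          (fun a => if a = i ∨ a = j then 0 else f ((Pi.single k c : ι → A) a)) = 0 := by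
        intro f hf
        funext a
        split_ifs with h
        · rfl
        · rw [Pi.single_eq_of_ne (fun e => h (by rw [e]; exact hk)), hf, Pi.zero_apply]
      rw [e (fun t => t) rfl, e (fun t => t * w i) (zero_mul _), S.col_zero, one_smul, zero_add]
    · have e : ∀ f : A → A, f 0 = 0 →
          (fun a => if a = i ∨ a = j then 0 else f ((Pi.single k c : ι → A) a)) =
            Pi.single k (f c) := by
        intro f hf
        funext a
        by_cases h : a = k
        · subst h
          simp [hk]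
        · simp [h, hf]
      push Not at hk
      rw [e (fun t => t) rfl, e (fun t => t * w i) (zero_mul _), S.col_single hk.1, ← mul_smul,
        S.x_mul_col hk.1 hk.2 hij, mul_smul, hy k i c hk.1 hij]

/-- The point is the chosen lift of the vector `v`, computed at the index `i`. -/
def RepAt (S : StData A ι G) (o : ι) (y₀ : Y) (i : ι) (v : ι → A) (y : Y) : Prop :=
  ∃ (u : Aˣ) (p : Y), v i = u ∧ S.Pt o y₀ i u p ∧ y = S.col i (fun a => v a * ↑u⁻¹) • p

theorem RepAt.change {i j : ι} {v : ι → A} {y : Y} (h : S.RepAt o y₀ i v y) (hj : IsUnit (v j)) :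
    S.RepAt o y₀ j v y := by
  by_cases hij : i = j
  · rwa [← hij]
  obtain ⟨u, p, hu, hp, rfl⟩ := h
  obtain ⟨u', hu'⟩ := hj
  obtain ⟨p', hp'⟩ := exists_pt h5 hy j u'
  refine ⟨u', p', hu'.symm, hp', ?_⟩
  have e1 : (fun a => v a * ↑u⁻¹) = (fun a => if a = i ∨ a = j then 0 else v a * ↑u⁻¹) +
      (Pi.single j ↑(u' * u⁻¹) + Pi.single i 1) := by
    funext a
    by_cases ha : a = i
    · subst ha
      simp [hu, hij]
    · by_cases ha' : a = j
      · subst ha'
        simp [hu', ha]
      · simp [ha, ha']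
  rw [e1, S.col_add, S.col_add, S.col_self, mul_one, S.col_single (Ne.symm hij), mul_smul,
    hp.cons h5 hy hij hp', ← S.col_single hij, (hp'.fix h5 hy).col_col hij]
  have e2 : (fun a => v a * ↑u'⁻¹) =
      ((fun a => if a = i ∨ a = j then 0 else
        v a * ↑u⁻¹ * (Pi.single i ↑(u * u'⁻¹) : ι → A) i) + Pi.single i ↑(u * u'⁻¹)) +
        Pi.single j 1 := by
    funext a
    by_cases ha : a = i
    · subst ha
      simp [hu, hij]
    · by_cases ha' : a = j
      · subst ha'
        simp [← hu', ha]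
      · simp [ha, ha', mul_assoc]
  rw [e2, S.col_add j _ (Pi.single j 1), S.col_self, mul_one]

omit hy in
theorem RepAt.unique {i : ι} {v : ι → A} {y y' : Y} (h : S.RepAt o y₀ i v y)
    (h' : S.RepAt o y₀ i v y') : y = y' := by
  obtain ⟨u, p, hu, hp, rfl⟩ := h
  obtain ⟨u', p', hu', hp', rfl⟩ := h'
  obtain rfl : u = u' := Units.ext (hu.symm.trans hu')
  obtain ⟨k, ho, hi, -⟩ := exists_ne₃ h5 o i i
  rw [hp k ho hi, hp' k ho hi]

theorem RepAt.smul_good {i a b : ι} {v : ι → A} {y : Y} (h : S.RepAt o y₀ i v y) (hab : a ≠ b)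
    (ha : a ≠ i) (c : A) : S.RepAt o y₀ i (Pi.single a (c * v b) + v) (S.x a b c • y) := by
  obtain ⟨u, p, hu, hp, rfl⟩ := h
  refine ⟨u, p, by simp [hu, Ne.symm ha], hp, ?_⟩
  have e : (fun t => (Pi.single a (c * v b) + v : ι → A) t * ↑u⁻¹) =
      Pi.single a (c * (v b * ↑u⁻¹)) + fun t => v t * ↑u⁻¹ := by
    funext t
    by_cases ht : t = a
    · subst ht
      simp [add_mul, mul_assoc]
    · simp [ht]
  rw [e, ← mul_smul]
  by_cases hb : b = i
  · subst hb
    rw [S.col_add, S.col_single ha, hu, u.mul_inv, mul_one]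
  · rw [S.x_mul_col hab ha hb, mul_smul, hp.fix h5 hy a b c hab hb]

variable [NilAug A]

omit h5 hy in
theorem isUnit_of_eps {u : A} (h : eps u ≠ 0) : IsUnit u := by
  have h1 : eps u = 1 := by
    revert h
    generalize eps u = z
    revert z
    decide
  obtain ⟨u', h2, h3⟩ := exists_inv_of_eps h1
  exact ⟨⟨u, u', h2, h3⟩, rfl⟩

theorem RepAt.smul {i a b : ι} {v : ι → A} {y : Y} (h : S.RepAt o y₀ i v y) (hab : a ≠ b)
    (c : A) : ∃ j, S.RepAt o y₀ j (Pi.single a (c * v b) + v) (S.x a b c • y) := by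
  by_cases hex : ∃ k, k ≠ a ∧ eps (v k) ≠ 0
  · obtain ⟨k, hk, hv⟩ := hex
    exact ⟨k, (h.change h5 hy (isUnit_of_eps hv)).smul_good h5 hy hab (Ne.symm hk) c⟩
  push Not at hex
  have hi : eps (v i) ≠ 0 := by
    obtain ⟨u, -, hu, -⟩ := h
    rw [hu]
    exact (u.isUnit.map eps).ne_zero
  obtain rfl : i = a := by
    by_contra hia
    exact hi (hex i hia)
  obtain ⟨k, hki, hkb, -⟩ := exists_ne₃ h5 i b b
  have h1 := h.smul_good h5 hy hki hki 1
  have h2 := (h1.change h5 hy (j := k) (isUnit_of_eps (by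
    simpa [hex k hki] using hi))).smul_good h5 hy hab (Ne.symm hki) c
  have h3 := (h2.change h5 hy (j := i) (isUnit_of_eps (by
    simpa [Ne.symm hki, Ne.symm hkb, hex b (Ne.symm hab)] using hi))).smul_good h5 hy hkb hki c
  have h4 := h3.smul_good h5 hy hki hki 1
  refine ⟨i, ?_⟩
  convert h4 using 1
  · funext t
    by_cases ht : t = k
    · subst ht
      simp only [Pi.add_apply, Pi.single_eq_same, Pi.single_eq_of_ne hki,
        Pi.single_eq_of_ne (Ne.symm hki), Pi.single_eq_of_ne (Ne.symm hkb),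
        Pi.single_eq_of_ne (Ne.symm hab), zero_add, one_mul]
      have e1 := add_self_eq (c * v b)
      have e2 := add_self_eq (v i)
      rw [← sub_eq_zero, ← neg_eq_zero, ← add_zero (0 : A)]
      nth_rewrite 1 [← e1]
      nth_rewrite 1 [← e2]
      abel
    · simp [ht, Ne.symm hkb]
  · rw [S.sm_mul' hki hab hkb, one_mul, S.sm_sq hkb, S.sm_sq hki]

theorem smul_eq_of_pi_eq_one {g : G} (hg : S.pi g = 1) : g • y₀ = y₀ := by
  have h0 : S.RepAt o y₀ o (Pi.single o 1) y₀ := by
    refine ⟨1, y₀, by simp, fun k hk _ => ?_, ?_⟩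
    · have := tr_tr (S := S) (Ne.symm hk) 1 y₀
      rw [inv_one] at this
      exact this.symm
    · simp only [inv_one, Units.val_one, mul_one]
      rw [S.col_self, one_smul]
  have key : ∀ g : G, ∃ j, S.RepAt o y₀ j (S.pi g *ᵥ Pi.single o 1) (g • y₀) := by
    intro g
    induction g using S.induction_left with
    | h1 => exact ⟨o, by rwa [map_one, one_mulVec, one_smul]⟩
    | hx a b c g hab ih =>
      obtain ⟨j, hj⟩ := ih
      obtain ⟨k, hk⟩ := hj.smul h5 hy hab c
      refine ⟨k, ?_⟩
      rw [map_mul, S.pi_x a b c hab, ← mulVec_mulVec, add_mulVec, one_mulVec, single_mulVec,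
        mul_smul, add_comm]
      exact hk
  obtain ⟨j, hj⟩ := key g
  rw [hg, one_mulVec] at hj
  exact (hj.change h5 hy (by simp)).unique h5 h0

end Action

/-- The kernel of the map to matrices is central. -/
theorem central [NilAug A] (h5 : ∀ s : Finset ι, s.card ≤ 4 → ∃ m, m ∉ s) {z : G}
    (hz : S.pi z = 1) (g : G) : g * z = z * g := by
  have key : ∀ i j a, i ≠ j → S.x i j a * z = z * S.x i j a := by
    intro i j a hij
    let P := Subgroup.closure {g | ∃ k l c, k ≠ l ∧ l ≠ i ∧ g = S.x k l c}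
    have hP : z ∈ P := by
      have h1 : S.Fix i ((1 : G) : G ⧸ P) := by
        intro k l c hkl hl
        rw [MulAction.Quotient.smul_coe, QuotientGroup.eq]
        have : S.x k l c ∈ P := Subgroup.subset_closure ⟨k, l, c, hkl, hl, rfl⟩
        simpa using this
      have h2 := smul_eq_of_pi_eq_one h5 h1 hz
      rw [MulAction.Quotient.smul_coe, QuotientGroup.eq] at h2
      simpa using h2
    obtain ⟨R, hR, hR'⟩ := S.exists_row i
    have h3 : ∀ k l c, k ≠ l → l ≠ i → ∀ w : ι → A,
        R w * S.x k l c = S.x k l c * R (Pi.single l (if k = i then 0 else w k * c) + w) := by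
      intro k l c hkl hl w
      induction w using Pi.single_induction with
      | zero => simp [map_zero_of_add hR]
      | add v w hv hw =>
        rw [hR, mul_assoc, hw, ← mul_assoc, hv, mul_assoc, ← hR, add_add_add_comm, ← Pi.single_add]
        congr 4
        split_ifs <;> simp [add_mul]
      | single m d =>
        rw [hR, hR', hR', if_neg hl]
        by_cases hm : m = i
        · subst hm
          have : (if k = m then 0 else (Pi.single m d : ι → A) k * c) = 0 := by
            split_ifs with h <;> simp [h]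
          rw [this, S.x_zero (Ne.symm hl)]
          simp
        · rw [if_neg hm]
          by_cases hk : k = m
          · subst hk
            rw [if_neg hm, Pi.single_eq_same, S.mul i k l (Ne.symm hm) hkl (Ne.symm hl),
              ← mul_assoc, S.comm i l k l (Ne.symm hl) hkl (Ne.symm hkl) (Ne.symm hl), mul_assoc]
          · rw [Pi.single_eq_of_ne hk, zero_mul, ite_self, S.x_zero (Ne.symm hl), one_mul,
              S.comm i m k l (Ne.symm hm) hkl (Ne.symm hk) (Ne.symm hl)]
    have h4 : ∀ w : ι → A, w i = 0 → R w * z = z * R (w ᵥ* S.pi z) := by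
      refine S.closure_induction (T := fun _ l => l ≠ i)
        (p := fun z => ∀ w : ι → A, w i = 0 → R w * z = z * R (w ᵥ* S.pi z)) (by simp) ?_ hP
      intro k l c g hkl hl ih w hw
      rw [← mul_assoc, h3 k l c hkl hl, mul_assoc, ih _ (by simp [hw, Ne.symm hl]), mul_assoc,
        map_mul, S.pi_x k l c hkl, ← vecMul_vecMul]
      congr 4
      funext t
      rw [vecMul_add, vecMul_one, add_comm]
      by_cases ht : t = l
      · subst ht
        by_cases hk : k = i
        · simp [vecMul, dotProduct, single, hk, hw]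
        · simp [vecMul, dotProduct, single, hk]
      · simp [vecMul, dotProduct, single, ht, Ne.symm ht]
    have h5 := h4 (Pi.single j a) (by simp [hij])
    rwa [hz, vecMul_one, hR', if_neg (Ne.symm hij)] at h5
  induction g using S.induction_left with
  | h1 => simp
  | hx i j a g hij ih => rw [mul_assoc, ih, ← mul_assoc, key i j a hij, mul_assoc]

end StData

end Vale.Agent.P192Z.Tor
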