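import Mathlib.Algebra.Category.Grp.Injective
import Vale.Agent.P192Z.Tor.Stab

/-! From a kernel element of infinite order to a datum and a word with nonzero sum. -/

namespace Vale.Agent.P192Z.Tor

open Matrix NilAug

set_option linter.unusedSectionVars false

theorem exists_char {G : Type*} [Group G] (K : Subgroup G) (hK : ∀ a ∈ K, ∀ b ∈ K, a * b = b * a)
    {z : G} (hz : z ∈ K) (hinf : ¬IsOfFinOrder z) :
    ∃ χ : G → ℚ, (∀ a ∈ K, ∀ b ∈ K, χ (a * b) = χ a + χ b) ∧ χ z ≠ 0 := by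
  classical
  let : CommGroup K := { (inferInstance : Group K) with
    mul_comm := fun a b => Subtype.ext (hK a a.2 b b.2) }
  have hinj : Function.Injective (zmultiplesHom (Additive K) (Additive.ofMul ⟨z, hz⟩)) := by
    intro m n h
    apply injective_zpow_iff_not_isOfFinOrder.mpr hinf
    exact congrArg (fun t : Additive K => (t.toMul : G)) h
  obtain ⟨f, hf⟩ := (Module.Baer.of_divisible ℚ).extension_property_addMonoidHom _ hinj
    (Int.castAddHom ℚ)
  refine ⟨fun g => if h : g ∈ K then f (Additive.ofMul ⟨g, h⟩) else 0, fun a ha b hb => ?_, ?_⟩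
  · simp only [dif_pos ha, dif_pos hb, dif_pos (K.mul_mem ha hb)]
    rw [← map_add]
    rfl
  · have := DFunLike.congr_fun hf 1
    simp only [AddMonoidHom.coe_comp, Function.comp_apply, zmultiplesHom_apply, one_zsmul] at this
    simp [dif_pos hz, this]

theorem exists_quasi {G : Type*} [Group G] (K : Subgroup G) (hK : ∀ a ∈ K, ∀ g, g * a = a * g)
    (hT : ∀ g : G, ∃ n, 0 < n ∧ g ^ n ∈ K) (χ : G → ℚ)
    (hχ : ∀ a ∈ K, ∀ b ∈ K, χ (a * b) = χ a + χ b) :
    ∃ φ : G → ℚ, (∀ a ∈ K, ∀ g, φ (a * g) = χ a + φ g) ∧ (∀ g (k : ℕ), φ (g ^ k) = k * φ g) ∧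
      ∀ g h, φ (h * g * h⁻¹) = φ g := by
  have h1 : χ 1 = 0 := by
    have := hχ 1 K.one_mem 1 K.one_mem
    rw [mul_one] at this
    linarith
  have hp : ∀ a ∈ K, ∀ k : ℕ, χ (a ^ k) = k * χ a := by
    intro a ha k
    induction k with
    | zero => simpa using h1
    | succ k ih =>
      rw [pow_succ, hχ _ (K.pow_mem ha k) a ha, ih]
      push_cast
      ring
  choose N hN hN' using hT
  have hind : ∀ g (n : ℕ), 0 < n → g ^ n ∈ K → χ (g ^ N g) / N g = χ (g ^ n) / n := by
    intro g n hn hg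
    have e1 := hp _ hg (N g)
    have e2 := hp _ (hN' g) n
    rw [← pow_mul] at e1 e2
    rw [Nat.mul_comm] at e2
    have p1 : (N g : ℚ) ≠ 0 := Nat.cast_ne_zero.mpr (hN g).ne'
    have p2 : (n : ℚ) ≠ 0 := Nat.cast_ne_zero.mpr hn.ne'
    field_simp
    linarith
  refine ⟨fun g => χ (g ^ N g) / N g, fun a ha g => ?_, fun g k => ?_, fun g h => ?_⟩ <;>
    beta_reduce
  · have hc : Commute a g := (hK a ha g).symm
    have p1 : (N g : ℚ) ≠ 0 := Nat.cast_ne_zero.mpr (hN g).ne'
    rw [hind (a * g) (N g) (hN g) (by rw [hc.mul_pow]; exact K.mul_mem (K.pow_mem ha _) (hN' g)),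
      hc.mul_pow, hχ _ (K.pow_mem ha _) _ (hN' g), hp a ha]
    field_simp
  · have e : (g ^ k) ^ N g = (g ^ N g) ^ k := by rw [← pow_mul, ← pow_mul, Nat.mul_comm]
    rw [hind (g ^ k) (N g) (hN g) (by rw [e]; exact K.pow_mem (hN' g) k), e, hp _ (hN' g)]
    ring
  · have e : (h * g * h⁻¹) ^ N g = g ^ N g := by
      rw [conj_pow, hK _ (hN' g) h, mul_inv_cancel_right]
    rw [hind (h * g * h⁻¹) (N g) (hN g) (by rw [e]; exact hN' g), e]

theorem exists_can {G Γ : Type*} [Group G] [Group Γ] (K : Subgroup G)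
    (hK : ∀ a ∈ K, ∀ g, g * a = a * g) (χ φ : G → ℚ) (h1 : ∀ a ∈ K, ∀ g, φ (a * g) = χ a + φ g)
    (h2 : ∀ g (k : ℕ), φ (g ^ k) = k * φ g) (C : Subgroup G) (f : C →* Γ)
    (hf : ∀ a, f a = 1 → a.1 ∈ K) :
    ∃ β, IsCan f.range β ∧ ∀ a b : C, β (f a) (f b) = φ (a * b) - φ a - φ b := by
  have h0 : φ 1 = 0 := by simpa using h2 1 0
  have hχ : ∀ a ∈ K, χ a = φ a := fun a ha => by
    have := h1 a ha 1
    rw [mul_one, h0, add_zero] at this
    exact this.symm
  have hlift : ∀ g : Γ, ∃ a : C, g ∈ f.range → f a = g := by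
    intro g
    by_cases hg : g ∈ f.range
    · obtain ⟨a, rfl⟩ := hg
      exact ⟨a, fun _ => rfl⟩
    · exact ⟨1, fun h => absurd h hg⟩
  choose r hr using hlift
  have hr' : ∀ a : C, ∃ k ∈ K, (r (f a) : G) = k * a := by
    intro a
    refine ⟨(r (f a) * a⁻¹ : C), hf _ ?_, by simp⟩
    rw [map_mul, map_inv, hr _ ⟨a, rfl⟩, mul_inv_cancel]
  have hβ : ∀ a b : C, φ (r (f a) * r (f b)) - φ (r (f a)) - φ (r (f b)) =
      φ (a * b) - φ a - φ b := by
    intro a b
    obtain ⟨k, hk, e⟩ := hr' a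
    obtain ⟨k', hk', e'⟩ := hr' b
    have e2 : k * a * (k' * b) = k * (k' * (a * b)) := by
      rw [mul_assoc, ← mul_assoc (a : G), hK k' hk', mul_assoc]
    rw [e, e', e2, h1 k hk, h1 k' hk', h1 k hk, h1 k' hk']
    ring
  refine ⟨fun g h => φ (r g * r h) - φ (r g) - φ (r h), ⟨?_, ?_⟩, hβ⟩
  · rintro _ ⟨a, rfl⟩ _ ⟨b, rfl⟩ _ ⟨c, rfl⟩
    rw [← map_mul, ← map_mul, hβ, hβ, hβ, hβ]
    simp only [Subgroup.coe_mul, mul_assoc]
    ring
  · rintro _ ⟨a, rfl⟩ k
    rw [← map_pow, hβ, Subgroup.coe_pow, ← pow_succ', h2, h2]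
    push_cast
    ring

variable {A : Type*} [Ring A] [Algebra (ZMod 2) A]
variable {I J K : Type*} [Fintype I] [DecidableEq I] [Fintype J] [DecidableEq J]
  [Fintype K] [DecidableEq K]

/-- A constant matrix times a scalar. -/
def lt {I J : Type*} (M : Matrix I J (ZMod 2)) (s : A) : Matrix I J A := M.map (· • s)

omit [Fintype I] [DecidableEq I] [DecidableEq J] [Fintype K] [DecidableEq K] in
theorem lt_mul (M : Matrix I J (ZMod 2)) (N : Matrix J K (ZMod 2)) (s t : A) :
    lt M s * lt N t = lt (M * N) (s * t) := by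
  ext a b
  simp only [lt, Matrix.mul_apply, map_apply, Finset.sum_smul, smul_mul_smul_comm]

omit [Fintype I] [DecidableEq I] [Fintype J] [DecidableEq J] in
theorem cst_eq_lt (M : Matrix I J (ZMod 2)) : cst A M = lt M 1 := by
  ext a b
  simp [lt, cst, Algebra.algebraMap_eq_smul_one]

omit [Fintype I] [DecidableEq I] [Fintype J] [DecidableEq J] in
theorem lt_add (M N : Matrix I J (ZMod 2)) (s : A) : lt (M + N) s = lt M s + lt N s := by
  ext a b
  simp [lt, add_smul]

omit [Fintype I] [DecidableEq I] [Fintype J] [DecidableEq J] in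
theorem lt_zero (s : A) : lt (0 : Matrix I J (ZMod 2)) s = 0 := by
  ext a b
  simp [lt]

omit [Fintype I] [Fintype J] in
theorem lt_single (i : I) (j : J) (s : A) : lt (single i j 1) s = single i j s := by
  ext a b
  simp only [lt, map_apply, single, of_apply]
  split_ifs <;> simp

variable [NilAug A]

variable (A) in
/-- The augmentation ideal as a type. -/
abbrev Aug := {s : A // eps s = 0}

/-- The letter attached to a constant matrix and an element of the augmentation ideal. -/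
def lett (M : Matrix I I (ZMod 2)) (s : Aug A) : Gam A I :=
  ⟨1 + lt M s.1, one_add_mem_Gam fun a b => by
    rw [lt, map_apply, Algebra.smul_def, map_mul, s.2, mul_zero]⟩

theorem coe_lett (M : Matrix I I (ZMod 2)) (s : Aug A) : (lett M s).1 = 1 + lt M s.1 := rfl

theorem sp_lett (u : Matrix J I (ZMod 2)) (v : Matrix I J (ZMod 2)) (h : v * u = 1)
    (M : Matrix I I (ZMod 2)) (s : Aug A) : sp u v h (lett M s) = lett (u * M * v) s := by
  apply Subtype.ext
  rw [coe_sp, coe_lett, coe_lett, add_sub_cancel_left, cst_eq_lt, cst_eq_lt, lt_mul, lt_mul,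
    one_mul, mul_one]

/-- Conjugates of off diagonal matrix units. -/
def Elem (E : Matrix I I (ZMod 2)) : Prop :=
  ∃ u v i j, v * u = 1 ∧ i ≠ j ∧ E = u * single i j 1 * v

namespace StData

variable {ι G : Type*} [Fintype ι] [DecidableEq ι] [Group G] (S : StData A ι G)

theorem exists_pow_mem_ker (g : G) : ∃ n, 0 < n ∧ g ^ n ∈ S.pi.ker := by
  let ρ : G →* Matrix ι ι (ZMod 2) := (RingHom.mapMatrix (m := ι) eps).toMonoidHom.comp S.pi
  obtain ⟨n, hn, e⟩ := isOfFinOrder_iff_pow_eq_one.mp ((Group.isUnit g).map ρ).isOfFinOrder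
  rw [← map_pow] at e
  obtain ⟨m, hm, e'⟩ := isOfFinOrder_iff_pow_eq_one.mp
    (isMulTorsion_Gam (⟨S.pi (g ^ n), e⟩ : Gam A ι))
  refine ⟨n * m, Nat.mul_pos hn hm, ?_⟩
  rw [MonoidHom.mem_ker, pow_mul, map_pow]
  exact congrArg Subtype.val e'

omit [NilAug A] in
theorem exists_lift (u v : Matrix ι ι (ZMod 2)) (h : v * u = 1) :
    ∃ c, S.pi c = cst A u ∧ S.pi c⁻¹ = cst A v := by
  refine gl_induction (fun u v _ => ∃ c, S.pi c = cst A u ∧ S.pi c⁻¹ = cst A v) (fun _ => ?_)
    (fun a b c hab _ => ?_) ?_ u v h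
  · exact ⟨1, by simp [cst_one]⟩
  · refine ⟨S.x a b (algebraMap _ _ c), ?_⟩
    rw [S.x_inv hab, S.pi_x a b _ hab, cst_add, cst_one, cst_single]
    exact ⟨rfl, rfl⟩
  · rintro u v - u' v' - - ⟨c, h1, h2⟩ ⟨c', h1', h2'⟩
    refine ⟨c' * c, ?_, ?_⟩
    · rw [map_mul, h1, h1', cst_mul]
    · rw [_root_.mul_inv_rev, map_mul, h2, h2', cst_mul]

/-- The subgroup generated by the constant generators. -/
def const : Subgroup G := Subgroup.closure {g | ∃ i j a, i ≠ j ∧ a = 1 ∧ g = S.x i j a}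

theorem pi_const {c : G} (hc : c ∈ S.const) : S.pi c = cst A ((S.pi c).map eps) := by
  induction hc using Subgroup.closure_induction_left with
  | one => rw [map_one, Matrix.map_one _ (map_zero _) (map_one _), cst_one]
  | mul_left s hs g hg ih =>
    obtain ⟨i, j, a, hij, rfl, rfl⟩ := hs
    have e : S.pi (S.x i j 1) = cst A (1 + single i j 1) := by
      rw [S.pi_x i j _ hij, cst_add, cst_one, cst_single, map_one]
    rw [map_mul, Matrix.map_mul, cst_mul, ← ih, e, cst_map_eps]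
  | inv_mul_cancel s hs g hg ih =>
    obtain ⟨i, j, a, hij, rfl, rfl⟩ := hs
    have e : S.pi (S.x i j 1) = cst A (1 + single i j 1) := by
      rw [S.pi_x i j _ hij, cst_add, cst_one, cst_single, map_one]
    rw [S.x_inv hij, map_mul, Matrix.map_mul, cst_mul, ← ih, e, cst_map_eps]

omit [NilAug A] in
theorem induction_gen (h5 : ∀ s : Finset ι, s.card ≤ 4 → ∃ m, m ∉ s) {T : Set A}
    (hT : Subring.closure T = ⊤) {p : G → Prop} (h1 : p 1)
    (hx : ∀ i j a g, i ≠ j → a = 1 ∨ a ∈ T → p g → p (S.x i j a * g)) (g : G) : p g := by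
  have key : ∀ a : A, ∀ i j, i ≠ j → ∀ g, p g → p (S.x i j a * g) := by
    intro a
    have ha : a ∈ Subring.closure T := hT ▸ Subring.mem_top a
    induction ha using Subring.closure_induction with
    | mem a ha => exact fun i j hij g => hx i j a g hij (Or.inr ha)
    | zero => intro i j hij g hg; rwa [S.x_zero hij, one_mul]
    | one => exact fun i j hij g => hx i j 1 g hij (Or.inl rfl)
    | add a b _ _ ha hb =>
      intro i j hij g hg
      rw [S.add i j hij, mul_assoc]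
      exact ha i j hij _ (hb i j hij g hg)
    | neg a _ ha => rwa [neg_eq]
    | mul a b _ _ ha hb =>
      intro i j hij g hg
      obtain ⟨k, hi, hj, -⟩ := exists_ne₃ h5 i j j
      have e : S.x i j (a * b) * g =
          S.x i k a * (S.x k j b * (S.x i k a * (S.x k j b * g))) := by
        rw [← mul_assoc (S.x i k a), S.mul i k j (Ne.symm hi) hj hij]
        simp only [mul_assoc]
        rw [← mul_assoc (S.x i k a), S.x_sq (Ne.symm hi), one_mul, ← mul_assoc (S.x k j b),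
          S.x_sq hj, one_mul]
      rw [e]
      exact ha i k (Ne.symm hi) _ (hb k j hj _ (ha i k (Ne.symm hi) _ (hb k j hj g hg)))
  induction g using S.induction_left with
  | h1 => exact h1
  | hx i j a g hij ih => exact key a i j hij g ih

omit [NilAug A] in
theorem exists_letters (h5 : ∀ s : Finset ι, s.card ≤ 4 → ∃ m, m ∉ s) {T : Set A}
    (hT : Subring.closure T = ⊤) (g : G) : ∃ (l : List G) (c : G), c ∈ S.const ∧ g = l.prod * c ∧
      ∀ y ∈ l, ∃ c ∈ S.const, ∃ i j, i ≠ j ∧ ∃ s ∈ T, y = c * S.x i j s * c⁻¹ := by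
  induction g using S.induction_gen h5 hT with
  | h1 => exact ⟨[], 1, S.const.one_mem, by simp, by simp⟩
  | hx i j a g hij ha ih =>
    obtain ⟨l, c, hc, rfl, hl⟩ := ih
    rcases ha with rfl | ha
    · have hx : S.x i j 1 ∈ S.const := Subgroup.subset_closure ⟨i, j, 1, hij, rfl, rfl⟩
      refine ⟨l.map (MulAut.conj (S.x i j 1)), S.x i j 1 * c, S.const.mul_mem hx hc, ?_, ?_⟩
      · rw [← map_list_prod, MulAut.conj_apply]
        group
      · intro y hy
        obtain ⟨y, hy', rfl⟩ := List.mem_map.mp hy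
        obtain ⟨c', hc', k, m, hkm, s, hs, rfl⟩ := hl y hy'
        refine ⟨S.x i j 1 * c', S.const.mul_mem hx hc', k, m, hkm, s, hs, ?_⟩
        rw [MulAut.conj_apply]
        group
    · refine ⟨S.x i j a :: l, c, hc, by rw [List.prod_cons, mul_assoc], fun y hy => ?_⟩
      rcases List.mem_cons.mp hy with rfl | hy
      · exact ⟨1, S.const.one_mem, i, j, hij, a, ha, by simp⟩
      · exact hl y hy

theorem exists_word (h5 : ∀ s : Finset ι, s.card ≤ 4 → ∃ m, m ∉ s) {T : Set A}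
    (hT : Subring.closure T = ⊤) (hTe : ∀ s ∈ T, eps s = 0) {z : G} (hz : S.pi z = 1)
    (hinf : ¬IsOfFinOrder z) :
    ∃ (D : Datum A ι) (l : List (Matrix ι ι (ZMod 2) × Aug A)),
      (∀ p ∈ l, Elem p.1 ∧ p.2.1 ∈ T) ∧ (l.map fun p => lett p.1 p.2).prod = 1 ∧
      bsum D.β (l.map fun p => lett p.1 p.2) ≠ 0 := by
  have hK : ∀ a ∈ S.pi.ker, ∀ g, g * a = a * g := fun a ha g => S.central h5 ha g
  obtain ⟨χ, hχ, hχz⟩ := exists_char S.pi.ker (fun a _ b hb => hK b hb a) hz hinf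
  obtain ⟨φ, h1, h2, h3⟩ := exists_quasi S.pi.ker hK S.exists_pow_mem_ker χ hχ
  have h0 : φ 1 = 0 := by simpa using h2 1 0
  have hx : ∀ i j a, i ≠ j → φ (S.x i j a) = 0 := by
    intro i j a hij
    have := h2 (S.x i j a) 2
    rw [sq, S.x_sq hij, h0] at this
    push_cast at this
    linarith
  have hconst : ∀ c ∈ S.const, φ c = 0 := by
    let ρ : G →* Matrix ι ι (ZMod 2) := (RingHom.mapMatrix (m := ι) eps).toMonoidHom.comp S.pi
    obtain ⟨β, hβ, hβ'⟩ := exists_can S.pi.ker hK χ φ h1 h2 S.const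
      (ρ.toHomUnits.comp S.const.subtype) fun a ha => by
        have e : (S.pi a).map eps = 1 := congrArg Units.val ha
        rw [MonoidHom.mem_ker, S.pi_const a.2, e, cst_one]
    have hz := hβ.eq_zero_of_finite (fun g => isOfFinOrder_of_finite g) le_rfl (Set.toFinite _)
    intro c hc
    induction hc using Subgroup.closure_induction with
    | mem g hg =>
      obtain ⟨i, j, a, hij, -, rfl⟩ := hg
      exact hx i j a hij
    | one => exact h0
    | mul a b ha hb ih ih' =>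
      have := hβ' ⟨a, ha⟩ ⟨b, hb⟩
      rw [hz _ ⟨_, rfl⟩ _ ⟨_, rfl⟩] at this
      simp only at this
      linarith
    | inv a ha ih =>
      have := hβ' ⟨a, ha⟩ ⟨a⁻¹, S.const.inv_mem ha⟩
      rw [hz _ ⟨_, rfl⟩ _ ⟨_, rfl⟩] at this
      simp only [mul_inv_cancel] at this
      linarith
  let C : Subgroup G :=
    ((RingHom.mapMatrix (m := ι) (eps : A →+* ZMod 2)).toMonoidHom.comp S.pi).ker
  let f : C →* Gam A ι := (S.pi.comp C.subtype).codRestrict (Gam A ι) fun a => a.2
  have hf : ∀ a : C, (f a).1 = S.pi a := fun a => rfl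
  obtain ⟨β, hβ, hβ'⟩ := exists_can S.pi.ker hK χ φ h1 h2 C f fun a ha =>
    congrArg Subtype.val ha
  have hconj : ∀ u v (h : v * u = 1), ∃ c : G, ∀ a : C, ∃ ha : c * a * c⁻¹ ∈ C,
      sp u v h (f a) = f ⟨_, ha⟩ := by
    intro u v h
    obtain ⟨c, hc, hc'⟩ := S.exists_lift u v h
    refine ⟨c, fun a => ⟨(MonoidHom.normal_ker _).conj_mem _ a.2 c, Subtype.ext ?_⟩⟩
    rw [coe_sp_sq, hf, hf, map_mul, map_mul, hc, hc']
  let D : Datum A ι := ⟨f.range, β, hβ, fun g i j r hij hg => ⟨⟨S.x i j r, by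
      change (S.pi _).map eps = 1
      rw [S.pi_x i j r hij, ← hg]
      exact g.2⟩, Subtype.ext ((S.pi_x i j r hij).trans hg.symm)⟩, by
      rintro u v h _ ⟨a, rfl⟩
      obtain ⟨c, hc⟩ := hconj u v h
      obtain ⟨ha, e⟩ := hc a
      exact ⟨_, e.symm⟩, by
      rintro u v h _ ⟨a, rfl⟩ _ ⟨b, rfl⟩
      obtain ⟨c, hc⟩ := hconj u v h
      obtain ⟨ha, e⟩ := hc a
      obtain ⟨hb, e'⟩ := hc b
      rw [e, e', hβ', hβ']
      have : c * a * c⁻¹ * (c * b * c⁻¹) = c * (a * b) * c⁻¹ := by group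
      simp only
      rw [this, h3, h3, h3]⟩
  have hw : ∀ l : List G,
      (∀ y ∈ l, ∃ c ∈ S.const, ∃ i j, i ≠ j ∧ ∃ s ∈ T, y = c * S.x i j s * c⁻¹) →
      ∃ (l' : List (Matrix ι ι (ZMod 2) × Aug A)) (h : l.prod ∈ C),
        (∀ p ∈ l', Elem p.1 ∧ p.2.1 ∈ T) ∧ (l'.map fun p => lett p.1 p.2).prod = f ⟨_, h⟩ ∧
        bsum β (l'.map fun p => lett p.1 p.2) = φ l.prod := by
    intro l
    induction l with
    | nil => exact fun _ => ⟨[], C.one_mem, by simp, (map_one f).symm, by simp [h0]⟩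
    | cons y l ih =>
      intro hl
      obtain ⟨l', h, q1, q2, q3⟩ := ih fun y hy => hl y (List.mem_cons_of_mem _ hy)
      obtain ⟨c, hc, i, j, hij, s, hs, rfl⟩ := hl y List.mem_cons_self
      have hvu : (S.pi c⁻¹).map eps * (S.pi c).map eps = 1 := by
        rw [← Matrix.map_mul, ← map_mul, inv_mul_cancel, map_one,
          Matrix.map_one _ (map_zero _) (map_one _)]
      have e : S.pi (c * S.x i j s * c⁻¹) =
          (lett ((S.pi c).map eps * single i j 1 * (S.pi c⁻¹).map eps) ⟨s, hTe s hs⟩).1 := by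
        rw [← sp_lett _ _ hvu, coe_sp_sq, ← S.pi_const hc, ← S.pi_const (S.const.inv_mem hc),
          coe_lett, lt_single, map_mul, map_mul, S.pi_x i j s hij]
      have hy : c * S.x i j s * c⁻¹ ∈ C := by
        change (S.pi _).map eps = 1
        rw [e]
        exact (lett _ _).2
      have e' : lett ((S.pi c).map eps * single i j 1 * (S.pi c⁻¹).map eps) ⟨s, hTe s hs⟩ =
          f ⟨_, hy⟩ := Subtype.ext e.symm
      refine ⟨((S.pi c).map eps * single i j 1 * (S.pi c⁻¹).map eps, ⟨s, hTe s hs⟩) :: l',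
        C.mul_mem hy h, fun p hp => ?_, ?_, ?_⟩
      · rcases List.mem_cons.mp hp with rfl | hp
        · exact ⟨⟨_, _, i, j, hvu, hij, rfl⟩, hs⟩
        · exact q1 p hp
      · rw [List.map_cons, List.prod_cons, q2, e', ← map_mul]
        rfl
      · rw [List.map_cons, bsum_cons, q2, q3, e', hβ', List.prod_cons]
        simp only
        rw [h3, hx i j s hij]
        ring
  obtain ⟨l, c, hc, rfl, hl⟩ := S.exists_letters h5 hT z
  obtain ⟨l', h, q1, q2, q3⟩ := hw l hl
  have hc1 : S.pi c = 1 := by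
    have e := congrArg (fun M => M.map eps) hz
    have e2 : (S.pi l.prod).map eps = 1 := h
    simp only [map_mul, Matrix.map_mul] at e
    rw [e2, one_mul, Matrix.map_one _ (map_zero _) (map_one _)] at e
    rw [S.pi_const hc, e, cst_one]
  have hl1 : S.pi l.prod = 1 := by rwa [map_mul, hc1, mul_one] at hz
  refine ⟨D, l', q1, q2.trans (Subtype.ext hl1), ?_⟩
  have e1 := h1 c hc1 1
  have e2 := h1 l.prod hl1 1
  rw [mul_one, h0, add_zero] at e1 e2
  rw [hχ _ hl1 _ hc1, ← e1, hconst c hc, add_zero, ← e2] at hχz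
  exact q3 ▸ hχz

end StData

end Vale.Agent.P192Z.Tor
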