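import Mathlib.GroupTheory.Torsion
import Mathlib.GroupTheory.FiniteAbelian.Basic
import Mathlib.GroupTheory.Subgroup.Centralizer
import Mathlib.Tactic.Linarith
import Mathlib.Tactic.Group
import Mathlib.Tactic.FieldSimp

/-! Canonical rational two-cocycles on torsion groups: cocycles vanishing on cyclic subgroups. -/

namespace Vale.Agent.P192Z.Tor

variable {Γ : Type*} [Group Γ]

/-- `β` is a two-cocycle on `H` which vanishes on each cyclic subgroup. -/
structure IsCan (H : Subgroup Γ) (β : Γ → Γ → ℚ) : Prop where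
  cocycle : ∀ a ∈ H, ∀ b ∈ H, ∀ c ∈ H, β a b + β (a * b) c = β a (b * c) + β b c
  pow : ∀ a ∈ H, ∀ k : ℕ, β a (a ^ k) = 0

variable {H : Subgroup Γ} {β β' : Γ → Γ → ℚ}

theorem IsCan.mono (h : IsCan H β) {H' : Subgroup Γ} (hle : H' ≤ H) : IsCan H' β :=
  ⟨fun a ha b hb c hc => h.cocycle a (hle ha) b (hle hb) c (hle hc),
    fun a ha k => h.pow a (hle ha) k⟩

theorem IsCan.congr (h : IsCan H β) (he : ∀ a ∈ H, ∀ b ∈ H, β' a b = β a b) : IsCan H β' := by
  refine ⟨fun a ha b hb c hc => ?_, fun a ha k => ?_⟩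
  · rw [he a ha b hb, he _ (H.mul_mem ha hb) c hc, he a ha _ (H.mul_mem hb hc), he b hb c hc]
    exact h.cocycle a ha b hb c hc
  · rw [he a ha _ (H.pow_mem ha k)]
    exact h.pow a ha k

theorem IsCan.sub (h : IsCan H β) (h' : IsCan H β') : IsCan H fun a b => β a b - β' a b := by
  refine ⟨fun a ha b hb c hc => ?_, fun a ha k => ?_⟩
  · have h1 := h.cocycle a ha b hb c hc
    have h2 := h'.cocycle a ha b hb c hc
    linarith
  · rw [h.pow a ha k, h'.pow a ha k, sub_zero]

theorem IsCan.comap {Γ' : Type*} [Group Γ'] (h : IsCan H β) {H' : Subgroup Γ'} (f : Γ' → Γ)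
    (hf : ∀ a ∈ H', f a ∈ H) (hmul : ∀ a ∈ H', ∀ b ∈ H', f (a * b) = f a * f b) :
    IsCan H' fun a b => β (f a) (f b) := by
  refine ⟨fun a ha b hb c hc => ?_, fun a ha k => ?_⟩
  · rw [hmul a ha b hb, hmul b hb c hc]
    exact h.cocycle _ (hf a ha) _ (hf b hb) _ (hf c hc)
  · have h1 : f 1 = 1 := by
      have := hmul 1 H'.one_mem 1 H'.one_mem
      rw [mul_one] at this
      exact mul_eq_left.mp this.symm
    have : ∀ k : ℕ, f (a ^ k) = f a ^ k := by
      intro k
      induction k with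
      | zero => simpa using h1
      | succ k ih => rw [pow_succ, hmul _ (H'.pow_mem ha k) a ha, ih, pow_succ]
    rw [this]
    exact h.pow _ (hf a ha) k

theorem IsCan.one_right (h : IsCan H β) {a : Γ} (ha : a ∈ H) : β a 1 = 0 := by
  simpa using h.pow a ha 0

theorem IsCan.one_left (h : IsCan H β) {a : Γ} (ha : a ∈ H) : β 1 a = 0 := by
  have h1 := h.cocycle 1 H.one_mem 1 H.one_mem a ha
  have h2 := h.one_right H.one_mem
  simp only [mul_one, one_mul] at h1
  linarith

/-- A canonical cocycle which is a coboundary vanishes. -/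
theorem IsCan.eq_zero_of_cobound (h : IsCan H β) (hT : IsMulTorsion Γ) (f : Γ → ℚ)
    (hf : ∀ a ∈ H, ∀ b ∈ H, β a b = f (a * b) - f a - f b) :
    ∀ a ∈ H, ∀ b ∈ H, β a b = 0 := by
  have h1 : f 1 = 0 := by
    have := hf 1 H.one_mem 1 H.one_mem
    rw [h.one_right H.one_mem, mul_one] at this
    linarith
  have h2 : ∀ a ∈ H, f a = 0 := by
    intro a ha
    have hk : ∀ k : ℕ, f (a ^ k) = k * f a := by
      intro k
      induction k with
      | zero => simpa using h1
      | succ k ih =>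
        have := hf a ha _ (H.pow_mem ha k)
        rw [h.pow a ha k, ← pow_succ', ih] at this
        push_cast
        linarith
    have h3 := hk (orderOf a)
    rw [pow_orderOf_eq_one, h1] at h3
    have h4 : (orderOf a : ℚ) ≠ 0 := Nat.cast_ne_zero.mpr (hT a).orderOf_pos.ne'
    exact (mul_eq_zero.mp h3.symm).resolve_left h4
  intro a ha b hb
  rw [hf a ha b hb, h2 _ (H.mul_mem ha hb), h2 a ha, h2 b hb]
  simp

theorem IsCan.eq_of_cobound (h : IsCan H β) (h' : IsCan H β') (hT : IsMulTorsion Γ) (f : Γ → ℚ)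
    (hf : ∀ a ∈ H, ∀ b ∈ H, β a b - β' a b = f (a * b) - f a - f b) :
    ∀ a ∈ H, ∀ b ∈ H, β a b = β' a b := fun a ha b hb =>
  sub_eq_zero.mp ((h.sub h').eq_zero_of_cobound hT f hf a ha b hb)

/-- A canonical cocycle vanishes on finite subgroups. -/
theorem IsCan.eq_zero_of_finite (h : IsCan H β) (hT : IsMulTorsion Γ) {F : Subgroup Γ}
    (hF : F ≤ H) (hfin : (F : Set Γ).Finite) : ∀ a ∈ F, ∀ b ∈ F, β a b = 0 := by
  classical
  have : Finite F := hfin
  have := Fintype.ofFinite F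
  have hc : (Fintype.card F : ℚ) ≠ 0 := Nat.cast_ne_zero.mpr Fintype.card_ne_zero
  refine (h.mono hF).eq_zero_of_cobound hT (fun a => -(∑ c : F, β a c) / Fintype.card F) ?_
  intro a ha b hb
  have h1 : ∑ c : F, (β a b + β (a * b) c) = ∑ c : F, (β a (b * c) + β b c) :=
    Finset.sum_congr rfl fun c _ => h.cocycle a (hF ha) b (hF hb) c (hF c.2)
  have h2 : ∑ c : F, β a (b * c) = ∑ c : F, β a c :=
    Fintype.sum_equiv (Equiv.mulLeft (⟨b, hb⟩ : F)) _ _ fun c => rfl
  rw [Finset.sum_add_distrib, Finset.sum_add_distrib, h2, Finset.sum_const, Finset.card_univ,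
    nsmul_eq_mul] at h1
  field_simp
  linarith

theorem finite_closure_of_comm (hT : IsMulTorsion Γ) {T : Set Γ} (hfin : T.Finite)
    (hcomm : ∀ x ∈ T, ∀ y ∈ T, x * y = y * x) : (Subgroup.closure T : Set Γ).Finite := by
  have h1 := Subgroup.isMulCommutative_closure hcomm
  have : Finite T := hfin
  open scoped IsMulCommutative in
  exact CommGroup.finite_of_fg_isMulTorsion (G := Subgroup.closure T) (hT.subgroup _)

theorem IsCan.eq_zero_of_comm (h : IsCan H β) (hT : IsMulTorsion Γ) {a b : Γ} (ha : a ∈ H)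
    (hb : b ∈ H) (hab : a * b = b * a) : β a b = 0 := by
  refine h.eq_zero_of_finite hT (F := Subgroup.closure {a, b}) ?_
    (finite_closure_of_comm hT (Set.toFinite _) ?_) a (Subgroup.subset_closure (by simp)) b
    (Subgroup.subset_closure (by simp))
  · rw [Subgroup.closure_le]
    rintro x (rfl | rfl)
    · exact ha
    · exact hb
  · rintro x (rfl | rfl) y (rfl | rfl)
    · rfl
    · exact hab
    · exact hab.symm
    · rfl

theorem IsCan.inv_right (h : IsCan H β) (hT : IsMulTorsion Γ) {a : Γ} (ha : a ∈ H) :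
    β a a⁻¹ = 0 := h.eq_zero_of_comm hT ha (H.inv_mem ha) (by simp)

/-- An element normalizing an abelian subgroup pairs trivially with it. -/
theorem IsCan.eq_zero_of_normal (h : IsCan H β) (hT : IsMulTorsion Γ) {N : Subgroup Γ}
    (hN : N ≤ H) (hcomm : ∀ x ∈ N, ∀ y ∈ N, x * y = y * x)
    (hnorm : ∀ p ∈ H, ∀ n ∈ N, p * n * p⁻¹ ∈ N) {a n : Γ} (ha : a ∈ H) (hn : n ∈ N) :
    β a n = 0 ∧ β n a = 0 := by
  have hz : Finite (Subgroup.zpowers a) := (hT a).finite_zpowers
  have hzH : Subgroup.zpowers a ≤ H := by rwa [Subgroup.zpowers_le]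
  set T : Set Γ := Set.range fun z : Subgroup.zpowers a => (z : Γ) * n * (z : Γ)⁻¹ with hTdef
  have hTN : ∀ x ∈ T, x ∈ N := by
    rintro _ ⟨z, rfl⟩
    exact hnorm _ (hzH z.2) n hn
  have hM := finite_closure_of_comm hT (Set.finite_range _ : T.Finite)
    fun x hx y hy => hcomm x (hTN x hx) y (hTN y hy)
  have hconj : ∀ z ∈ Subgroup.zpowers a, ∀ m ∈ Subgroup.closure T,
      z * m * z⁻¹ ∈ Subgroup.closure T := by
    intro z hz m hm
    induction hm using Subgroup.closure_induction with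
    | mem x hx =>
      obtain ⟨y, rfl⟩ := hx
      refine Subgroup.subset_closure ⟨⟨z, hz⟩ * y, ?_⟩
      simp only [Subgroup.coe_mul]
      group
    | one => simp
    | mul x y _ _ hx hy =>
      have := Subgroup.mul_mem _ hx hy
      convert this using 1
      group
    | inv x _ hx =>
      have := Subgroup.inv_mem _ hx
      convert this using 1
      group
  let F : Subgroup Γ :=
    { carrier := {x | ∃ z ∈ Subgroup.zpowers a, ∃ m ∈ Subgroup.closure T, x = z * m}
      one_mem' := ⟨1, Subgroup.one_mem _, 1, Subgroup.one_mem _, by simp⟩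
      mul_mem' := by
        rintro _ _ ⟨z, hz, m, hm, rfl⟩ ⟨z', hz', m', hm', rfl⟩
        refine ⟨z * z', Subgroup.mul_mem _ hz hz', z'⁻¹ * m * z'⁻¹⁻¹ * m',
          Subgroup.mul_mem _ (hconj _ (Subgroup.inv_mem _ hz') m hm) hm', by group⟩
      inv_mem' := by
        rintro _ ⟨z, hz, m, hm, rfl⟩
        exact ⟨z⁻¹, Subgroup.inv_mem _ hz, z * m⁻¹ * z⁻¹,
          hconj _ hz _ (Subgroup.inv_mem _ hm), by group⟩ }
  have hFH : F ≤ H := by
    rintro _ ⟨z, hz, m, hm, rfl⟩
    refine H.mul_mem (hzH hz) (hN ?_)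
    exact (Subgroup.closure_le N).mpr hTN hm
  have hFfin : (F : Set Γ).Finite := by
    refine (Set.Finite.image2 (· * ·) (hz : (Subgroup.zpowers a : Set Γ).Finite) hM).subset ?_
    rintro _ ⟨z, hz, m, hm, rfl⟩
    exact ⟨z, hz, m, hm, rfl⟩
  have haF : a ∈ F := ⟨a, Subgroup.mem_zpowers a, 1, Subgroup.one_mem _, by simp⟩
  have hnF : n ∈ F := ⟨1, Subgroup.one_mem _, n, Subgroup.subset_closure ⟨1, by simp⟩, by simp⟩
  exact ⟨h.eq_zero_of_finite hT hFH hFfin a haF n hnF,
    h.eq_zero_of_finite hT hFH hFfin n hnF a haF⟩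

/-- A canonical cocycle descends along an abelian normal subgroup. -/
theorem IsCan.descend (h : IsCan H β) (hT : IsMulTorsion Γ) {N : Subgroup Γ}
    (hN : N ≤ H) (hcomm : ∀ x ∈ N, ∀ y ∈ N, x * y = y * x)
    (hnorm : ∀ p ∈ H, ∀ n ∈ N, p * n * p⁻¹ ∈ N) {a b n n' : Γ} (ha : a ∈ H) (hb : b ∈ H)
    (hn : n ∈ N) (hn' : n' ∈ N) : β (a * n) (b * n') = β a b := by
  have z := fun {a n : Γ} (ha : a ∈ H) (hn : n ∈ N) =>
    h.eq_zero_of_normal hT hN hcomm hnorm ha hn
  have r : ∀ a ∈ H, ∀ b ∈ H, ∀ n ∈ N, β a (b * n) = β a b := by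
    intro a ha b hb n hn
    have h1 := h.cocycle a ha b hb n (hN hn)
    rw [(z (H.mul_mem ha hb) hn).1, (z hb hn).1] at h1
    linarith
  rw [r _ (H.mul_mem ha (hN hn)) b hb n' hn']
  have h1 := h.cocycle a ha n (hN hn) b hb
  rw [(z ha hn).1, (z hb hn).2] at h1
  have h2 : n * b = b * (b⁻¹ * n * b⁻¹⁻¹) := by group
  rw [h2, r a ha b hb _ (hnorm _ (H.inv_mem hb) n hn)] at h1
  linarith

/-- The sum of the cocycle along a word. -/
def bsum (β : Γ → Γ → ℚ) : List Γ → ℚ
  | [] => 0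
  | y :: l => β y l.prod + bsum β l

@[simp] theorem bsum_nil : bsum β [] = 0 := rfl

@[simp] theorem bsum_cons (y : Γ) (l : List Γ) : bsum β (y :: l) = β y l.prod + bsum β l := rfl

theorem bsum_map {Γ' : Type*} [Group Γ'] {β' : Γ' → Γ' → ℚ} {H' : Subgroup Γ'} (f : Γ' → Γ)
    (h1 : f 1 = 1) (hmul : ∀ a ∈ H', ∀ b ∈ H', f (a * b) = f a * f b)
    (hβ : ∀ a ∈ H', ∀ b ∈ H', β (f a) (f b) = β' a b) (l : List Γ') (hl : ∀ y ∈ l, y ∈ H') :
    (l.map f).prod = f l.prod ∧ bsum β (l.map f) = bsum β' l := by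
  induction l with
  | nil => simp [h1]
  | cons y l ih =>
    have hy : y ∈ H' := hl y List.mem_cons_self
    have hl' : ∀ z ∈ l, z ∈ H' := fun z hz => hl z (List.mem_cons_of_mem _ hz)
    obtain ⟨e1, e2⟩ := ih hl'
    have hp : l.prod ∈ H' := H'.list_prod_mem hl'
    constructor
    · rw [List.map_cons, List.prod_cons, List.prod_cons, e1, hmul y hy _ hp]
    · rw [List.map_cons, bsum_cons, bsum_cons, e1, e2, hβ y hy _ hp]

theorem bsum_eq_zero {F : Subgroup Γ} (hF : ∀ a ∈ F, ∀ b ∈ F, β a b = 0) (l : List Γ)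
    (hl : ∀ y ∈ l, y ∈ F) : bsum β l = 0 := by
  induction l with
  | nil => rfl
  | cons y l ih =>
    have hl' : ∀ z ∈ l, z ∈ F := fun z hz => hl z (List.mem_cons_of_mem _ hz)
    rw [bsum_cons, ih hl', hF y (hl y List.mem_cons_self) _ (F.list_prod_mem hl'), add_zero]

/-- Unshuffling a word of products. -/
theorem IsCan.bsum_shuffle (h : IsCan H β) (hT : IsMulTorsion Γ) {κ : Type*} (Y Z : κ → Γ)
    (l : List κ) (hY : ∀ k ∈ l, Y k ∈ H) (hZ : ∀ k ∈ l, Z k ∈ H)
    (hYZ : ∀ k ∈ l, Y k * Z k = Z k * Y k)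
    (hc : l.Pairwise fun k k' => Z k * Y k' = Y k' * Z k) :
    (l.map fun k => Y k * Z k).prod = (l.map Y).prod * (l.map Z).prod ∧
    bsum β (l.map fun k => Y k * Z k) =
      bsum β (l.map Y) + bsum β (l.map Z) + β (l.map Y).prod (l.map Z).prod := by
  induction l with
  | nil => simp [h.one_right H.one_mem]
  | cons k l ih =>
    obtain ⟨hc1, hc2⟩ := List.pairwise_cons.mp hc
    obtain ⟨e1, e2⟩ := ih (fun z hz => hY z (List.mem_cons_of_mem _ hz))
      (fun z hz => hZ z (List.mem_cons_of_mem _ hz))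
      (fun z hz => hYZ z (List.mem_cons_of_mem _ hz)) hc2
    have hy := hY k List.mem_cons_self
    have hz := hZ k List.mem_cons_self
    have hy' : (l.map Y).prod ∈ H := H.list_prod_mem (by
      intro y hy
      obtain ⟨z, hz, rfl⟩ := List.mem_map.mp hy
      exact hY z (List.mem_cons_of_mem _ hz))
    have hz' : (l.map Z).prod ∈ H := H.list_prod_mem (by
      intro y hy
      obtain ⟨z, hz, rfl⟩ := List.mem_map.mp hy
      exact hZ z (List.mem_cons_of_mem _ hz))
    have hcomm : Z k * (l.map Y).prod = (l.map Y).prod * Z k := by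
      refine (Commute.list_prod_right _ _ ?_ : Commute (Z k) (l.map Y).prod)
      intro y hy
      obtain ⟨z, hz, rfl⟩ := List.mem_map.mp hy
      exact hc1 z hz
    simp only [List.map_cons, List.prod_cons, bsum_cons]
    rw [e1, e2]
    set y' := (l.map Y).prod
    set z' := (l.map Z).prod
    refine ⟨by rw [mul_assoc, ← mul_assoc (Z k), hcomm]; group, ?_⟩
    have c1 := h.cocycle _ hy _ hz _ (H.mul_mem hy' hz')
    have c2 := h.cocycle _ hz _ hy' _ hz'
    have c3 := h.cocycle _ hy' _ hz _ hz'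
    have c4 := h.cocycle _ hy _ hy' _ (H.mul_mem hz hz')
    have z1 := h.eq_zero_of_comm hT hy hz (hYZ k List.mem_cons_self)
    have z2 := h.eq_zero_of_comm hT hz hy' hcomm
    have z3 := h.eq_zero_of_comm hT hy' hz hcomm.symm
    have e3 : Z k * (y' * z') = y' * (Z k * z') := by rw [← mul_assoc, hcomm, mul_assoc]
    rw [e3] at c1
    rw [hcomm] at c2
    linarith

/-- Every normalized cocycle is cohomologous to a canonical one. -/
theorem exists_isCan_of_cocycle (hT : IsMulTorsion Γ)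
    (hc : ∀ a ∈ H, ∀ b ∈ H, ∀ c ∈ H, β a b + β (a * b) c = β a (b * c) + β b c)
    (h1 : ∀ a ∈ H, β a 1 = 0) :
    ∃ f : Γ → ℚ, IsCan H fun a b => β a b + f (a * b) - f a - f b := by
  set S : Γ → ℕ → ℚ := fun a n => ∑ j ∈ Finset.range n, β a (a ^ j) with hS
  have hS0 : ∀ a, S a 0 = 0 := fun a => by simp [hS]
  have hS1 : ∀ a n, S a (n + 1) = S a n + β a (a ^ n) := fun a n => by
    simp [hS, Finset.sum_range_succ]
  have h11 : ∀ a ∈ H, β 1 a = 0 := by
    intro a ha
    have e1 := hc 1 H.one_mem 1 H.one_mem a ha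
    have e2 := h1 1 H.one_mem
    simp only [mul_one, one_mul] at e1
    linarith
  have hpow : ∀ a ∈ H, ∀ m n : ℕ, β (a ^ m) (a ^ n) = S a (m + n) - S a m - S a n := by
    intro a ha m
    induction m with
    | zero => intro n; simp [h11 _ (H.pow_mem ha n), hS0]
    | succ m ih =>
      intro n
      have e := hc a ha _ (H.pow_mem ha m) _ (H.pow_mem ha n)
      rw [← pow_succ', ← pow_add, ih n] at e
      rw [Nat.add_right_comm, hS1, hS1]
      linarith
  have hmul : ∀ a ∈ H, ∀ k n : ℕ, S (a ^ k) n = S a (k * n) - n * S a k := by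
    intro a ha k n
    induction n with
    | zero => simp [hS0]
    | succ n ih =>
      rw [hS1, ih, ← pow_mul, hpow a ha, Nat.mul_succ, Nat.add_comm k]
      push_cast
      ring
  have hper : ∀ a ∈ H, ∀ N : ℕ, a ^ N = 1 → ∀ k : ℕ, S a (k * N) = k * S a N := by
    intro a ha N hN k
    induction k with
    | zero => simp [hS0]
    | succ k ih =>
      have e := hpow a ha (k * N) N
      rw [hN, h1 _ (H.pow_mem ha _), ih] at e
      rw [Nat.succ_mul]
      push_cast
      linarith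
  have hind : ∀ a ∈ H, ∀ N : ℕ, 0 < N → a ^ N = 1 →
      S a (orderOf a) / orderOf a = S a N / N := by
    intro a ha N hN haN
    have e1 := hper a ha N haN (orderOf a)
    have e2 := hper a ha _ (pow_orderOf_eq_one a) N
    rw [Nat.mul_comm] at e2
    have p1 : (orderOf a : ℚ) ≠ 0 := Nat.cast_ne_zero.mpr (hT a).orderOf_pos.ne'
    have p2 : (N : ℚ) ≠ 0 := Nat.cast_ne_zero.mpr hN.ne'
    field_simp
    linarith
  refine ⟨fun a => S a (orderOf a) / orderOf a, fun a ha b hb c hc' => ?_, fun a ha k => ?_⟩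
  · have := hc a ha b hb c hc'
    rw [mul_assoc]
    linarith
  · have hk : ∀ k : ℕ, S (a ^ k) (orderOf (a ^ k)) / orderOf (a ^ k) =
        k * (S a (orderOf a) / orderOf a) - S a k := by
      intro k
      have p1 : (orderOf a : ℚ) ≠ 0 := Nat.cast_ne_zero.mpr (hT a).orderOf_pos.ne'
      rw [hind _ (H.pow_mem ha k) (orderOf a) (hT a).orderOf_pos
        (by rw [← pow_mul, Nat.mul_comm, pow_mul, pow_orderOf_eq_one, one_pow]),
        hmul a ha, hper a ha _ (pow_orderOf_eq_one a)]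
      field_simp
    simp only
    rw [← pow_succ', hk, hk, hS1]
    push_cast
    ring

end Vale.Agent.P192Z.Tor
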