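import Vale.Agent.P192Z.Tor.Canon

/-! Gluing canonical cocycles along a family of subgroups with a triple factorization
property. -/

namespace Vale.Agent.P192Z.Tor

variable {Γ : Type*} [Group Γ] {μ : Type*} {P : μ → Subgroup Γ}

/-- The triple factorization `P i = (P i ∩ P j) (P i ∩ P k ∩ P l)`. -/
def Fact3 (P : μ → Subgroup Γ) : Prop :=
  ∀ i j k l, i ≠ j → j ≠ k → j ≠ l → ∀ p ∈ P i,
    ∃ a c, a ∈ P i ∧ a ∈ P j ∧ c ∈ P i ∧ c ∈ P k ∧ c ∈ P l ∧ p = a * c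

theorem Fact3.right (hF : Fact3 P) {i j k l : μ} (hij : i ≠ j) (hjk : j ≠ k) (hjl : j ≠ l)
    {p : Γ} (hp : p ∈ P i) :
    ∃ c a, a ∈ P i ∧ a ∈ P j ∧ c ∈ P i ∧ c ∈ P k ∧ c ∈ P l ∧ p = c * a := by
  obtain ⟨a, c, h1, h2, h3, h4, h5, h6⟩ := hF i j k l hij hjk hjl p⁻¹ ((P i).inv_mem hp)
  refine ⟨c⁻¹, a⁻¹, (P i).inv_mem h1, (P j).inv_mem h2, (P i).inv_mem h3, (P k).inv_mem h4,
    (P l).inv_mem h5, ?_⟩
  rw [← mul_inv_rev, ← h6, inv_inv]

theorem Fact3.exists_mul (hF : Fact3 P) {i j k : μ} (hij : i ≠ j) (hik : i ≠ k) (hjk : j ≠ k)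
    {g : Γ} (hg : g ∈ ⨆ m, P m) : ∃ a ∈ P i, ∃ b ∈ P j, g = a * b := by
  have step : ∀ m, m ≠ j → ∀ p ∈ P m, ∀ a ∈ P i, ∀ b ∈ P j,
      ∃ a' ∈ P i, ∃ b' ∈ P j, p * (a * b) = a' * b' := by
    intro m hmj p hp a ha b hb
    by_cases hmi : m = i
    · subst hmi
      exact ⟨p * a, (P m).mul_mem hp ha, b, hb, by group⟩
    · obtain ⟨a₁, c₁, h1, h2, h3, h4, -, rfl⟩ :=
        hF i m j j (Ne.symm hmi) hmj hmj a ha
      obtain ⟨a₂, c₂, -, h6, -, h7, -, h8⟩ :=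
        hF m i j j hmi hij hij (p * a₁) ((P m).mul_mem hp h2)
      refine ⟨a₂, h6, c₂ * c₁ * b, (P j).mul_mem ((P j).mul_mem h7 h4) hb, ?_⟩
      calc p * (a₁ * c₁ * b) = p * a₁ * (c₁ * b) := by group
        _ = a₂ * (c₂ * c₁ * b) := by rw [h8]; group
  have key : ∀ a ∈ P i, ∀ b ∈ P j, ∃ a' ∈ P i, ∃ b' ∈ P j, g * (a * b) = a' * b' := by
    induction hg using Subgroup.iSup_induction' with
    | hp m p hp =>
      by_cases hmj : m = j
      · subst hmj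
        intro a ha b hb
        obtain ⟨a₁, c₁, -, h2, -, h4, -, rfl⟩ := hF m i k k (Ne.symm hij) hik hik p hp
        obtain ⟨a₂, h5, b₂, h6, h7⟩ := step k (Ne.symm hjk) c₁ h4 a ha b hb
        refine ⟨a₁ * a₂, (P i).mul_mem h2 h5, b₂, h6, ?_⟩
        rw [mul_assoc a₁, h7, mul_assoc]
      · exact step m hmj p hp
    | h1 => exact fun a ha b hb => ⟨a, ha, b, hb, one_mul _⟩
    | hmul x y _ _ hx hy =>
      intro a ha b hb
      obtain ⟨a₁, h1, b₁, h2, h3⟩ := hy a ha b hb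
      obtain ⟨a₂, h4, b₂, h5, h6⟩ := hx a₁ h1 b₁ h2
      exact ⟨a₂, h4, b₂, h5, by rw [mul_assoc, h3, h6]⟩
  obtain ⟨a, ha, b, hb, h⟩ := key 1 (P i).one_mem 1 (P j).one_mem
  exact ⟨a, ha, b, hb, by simpa using h⟩

theorem Fact3.exists_mul₂ (hF : Fact3 P) {i j k l : μ} (hij : i ≠ j) (hik : i ≠ k)
    (hjk : j ≠ k) (hil : i ≠ l) (hjl : j ≠ l) (hkl : k ≠ l) {g : Γ} (hg : g ∈ ⨆ m, P m) :
    ∃ a b, a ∈ P i ∧ a ∈ P j ∧ b ∈ P k ∧ b ∈ P l ∧ g = a * b := by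
  obtain ⟨a, ha, b, hb, rfl⟩ := hF.exists_mul hik hij (Ne.symm hjk) hg
  obtain ⟨a₁, c₁, h1, h2, -, h3, -, rfl⟩ := hF i j k k hij hjk hjk a ha
  obtain ⟨c₂, a₂, h4, h5, -, h6, h7, h8⟩ :=
    hF.right hkl (Ne.symm hil) (Ne.symm hjl) ((P k).mul_mem h3 hb)
  refine ⟨a₁ * c₂, a₂, (P i).mul_mem h1 h6, (P j).mul_mem h2 h7, h4, h5, ?_⟩
  rw [mul_assoc, h8, mul_assoc]

/-- A canonical cocycle on the join which vanishes on three of the subgroups vanishes. -/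
theorem Fact3.eq_zero (hF : Fact3 P) (hT : IsMulTorsion Γ) {B : Γ → Γ → ℚ}
    (hB : IsCan (⨆ m, P m) B) {i j k : μ} (hij : i ≠ j) (hik : i ≠ k) (hjk : j ≠ k)
    (hi : ∀ a ∈ P i, ∀ b ∈ P i, B a b = 0) (hj : ∀ a ∈ P j, ∀ b ∈ P j, B a b = 0)
    (hk : ∀ a ∈ P k, ∀ b ∈ P k, B a b = 0) :
    ∀ a ∈ ⨆ m, P m, ∀ b ∈ ⨆ m, P m, B a b = 0 := by
  classical
  set L := ⨆ m, P m with hL
  have le : ∀ m, P m ≤ L := fun m => le_iSup P m
  have hfac : ∀ g, ∃ a b, g ∈ L → a ∈ P i ∧ b ∈ P j ∧ g = a * b := by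
    intro g
    by_cases hg : g ∈ L
    · obtain ⟨a, ha, b, hb, h⟩ := hF.exists_mul hij hik hjk hg
      exact ⟨a, b, fun _ => ⟨ha, hb, h⟩⟩
    · exact ⟨1, 1, fun h => absurd h hg⟩
  choose fa fb hf using hfac
  set t : Γ → ℚ := fun g => B (fa g) (fb g) with ht
  have wd : ∀ a ∈ P i, ∀ b ∈ P j, t (a * b) = B a b := by
    intro a ha b hb
    obtain ⟨h1, h2, h3⟩ := hf (a * b) (L.mul_mem (le i ha) (le j hb))
    set c := a⁻¹ * fa (a * b) with hc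
    have hci : c ∈ P i := (P i).mul_mem ((P i).inv_mem ha) h1
    have hcj : c ∈ P j := by
      have : c = b * (fb (a * b))⁻¹ := by
        rw [hc, inv_mul_eq_iff_eq_mul, ← mul_assoc, eq_mul_inv_iff_mul_eq]
        exact h3.symm
      rw [this]
      exact (P j).mul_mem hb ((P j).inv_mem h2)
    have e := hB.cocycle a (le i ha) c (le i hci) _ (le j h2)
    have e1 : a * c = fa (a * b) := by rw [hc]; group
    have e2 : c * fb (a * b) = b := by rw [hc, mul_assoc, ← h3]; group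
    rw [e1, e2, hi a ha c hci, hj c hcj _ h2] at e
    simp only [ht]
    linarith
  have li : ∀ p ∈ P i, ∀ g ∈ L, B p g = t (p * g) - t g := by
    intro p hp g hg
    obtain ⟨a, ha, b, hb, rfl⟩ := hF.exists_mul hij hik hjk hg
    have e := hB.cocycle p (le i hp) a (le i ha) b (le j hb)
    rw [← mul_assoc, wd _ ((P i).mul_mem hp ha) b hb, wd a ha b hb]
    rw [hi p hp a ha] at e
    linarith
  have wdk : ∀ a ∈ P k, ∀ b ∈ P j, t (a * b) = B a b := by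
    intro a ha b hb
    obtain ⟨a₁, c₁, h1, h2, h3, h4, -, rfl⟩ := hF k i j j (Ne.symm hik) hij hij a ha
    have e := hB.cocycle a₁ (le i h2) c₁ (le j h4) b (le j hb)
    rw [hk a₁ h1 c₁ h3, hj c₁ h4 b hb] at e
    rw [mul_assoc, wd a₁ h2 _ ((P j).mul_mem h4 hb)]
    linarith
  have lk : ∀ p ∈ P k, ∀ g ∈ L, B p g = t (p * g) - t g := by
    intro p hp g hg
    obtain ⟨a, ha, b, hb, rfl⟩ := hF.exists_mul (Ne.symm hjk) (Ne.symm hik) (Ne.symm hij) hg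
    have e := hB.cocycle p (le k hp) a (le k ha) b (le j hb)
    rw [← mul_assoc, wdk _ ((P k).mul_mem hp ha) b hb, wdk a ha b hb]
    rw [hk p hp a ha] at e
    linarith
  have t1 : t 1 = 0 := by
    have := wd 1 (P i).one_mem 1 (P j).one_mem
    rw [mul_one] at this
    rw [this, hi 1 (P i).one_mem 1 (P i).one_mem]
  refine hB.eq_zero_of_cobound hT t fun g hg h hh => ?_
  obtain ⟨a, ha, b, hb, rfl⟩ := hF.exists_mul hik hij (Ne.symm hjk) hg
  have e := hB.cocycle a (le i ha) b (le k hb) h hh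
  have e1 := li a ha b (le k hb)
  have e2 := li a ha (b * h) (L.mul_mem (le k hb) hh)
  have e3 := lk b hb h hh
  have e4 := lk b hb 1 L.one_mem
  rw [hB.one_right (le k hb), mul_one, t1] at e4
  rw [mul_assoc]
  linarith

/-- Existence of the glued cocycle. -/
theorem Fact3.exists_glue (hF : Fact3 P) (hT : IsMulTorsion Γ) {β : Γ → Γ → ℚ}
    (hβ : ∀ m, IsCan (P m) β) {i₁ i₂ i₃ i₄ : μ} (h12 : i₁ ≠ i₂) (h13 : i₁ ≠ i₃) (h23 : i₂ ≠ i₃)
    (h14 : i₁ ≠ i₄) (h24 : i₂ ≠ i₄) (h34 : i₃ ≠ i₄) :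
    ∃ B, IsCan (⨆ m, P m) B ∧ ∀ m, m = i₁ ∨ m = i₂ ∨ m = i₃ ∨ m = i₄ →
      ∀ a ∈ P m, ∀ b ∈ P m, B a b = β a b := by
  classical
  set L := ⨆ m, P m with hL
  have le : ∀ m, P m ≤ L := fun m => le_iSup P m
  have hfac : ∀ g, ∃ a b, g ∈ L → a ∈ P i₁ ∧ a ∈ P i₂ ∧ b ∈ P i₃ ∧ b ∈ P i₄ ∧ g = a * b := by
    intro g
    by_cases hg : g ∈ L
    · obtain ⟨a, b, h⟩ := hF.exists_mul₂ h12 h13 h23 h14 h24 h34 hg
      exact ⟨a, b, fun _ => h⟩
    · exact ⟨1, 1, fun h => absurd h hg⟩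
  choose fa fb hf using hfac
  have hfa : ∀ i, i = i₁ ∨ i = i₂ → ∀ g ∈ L, fa g ∈ P i := by
    rintro i (rfl | rfl) g hg
    · exact (hf g hg).1
    · exact (hf g hg).2.1
  have hfb : ∀ j, j = i₃ ∨ j = i₄ → ∀ g ∈ L, fb g ∈ P j := by
    rintro j (rfl | rfl) g hg
    · exact (hf g hg).2.2.1
    · exact (hf g hg).2.2.2.1
  have hfe : ∀ g ∈ L, fa g * fb g = g := fun g hg => (hf g hg).2.2.2.2.symm
  set θ : Γ → Γ → ℚ := fun a b =>
    β ((fa (a * b))⁻¹ * a) b - β (fa (a * b)) ((fa (a * b))⁻¹ * a) with hθ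
  -- the middle element
  have mid : ∀ i j, i = i₁ ∨ i = i₂ → j = i₃ ∨ j = i₄ → ∀ a ∈ P i, ∀ b ∈ P j,
      (fa (a * b))⁻¹ * a ∈ P i ∧ (fa (a * b))⁻¹ * a ∈ P j ∧
        (fa (a * b))⁻¹ * a * b = fb (a * b) := by
    intro i j hi hj a ha b hb
    have hg : a * b ∈ L := L.mul_mem (le i ha) (le j hb)
    have e : (fa (a * b))⁻¹ * a * b = fb (a * b) := by
      rw [mul_assoc, inv_mul_eq_iff_eq_mul]
      exact (hfe _ hg).symm
    refine ⟨(P i).mul_mem ((P i).inv_mem (hfa i hi _ hg)) ha, ?_, e⟩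
    rw [eq_mul_inv_iff_mul_eq.mpr e]
    exact (P j).mul_mem (hfb j hj _ hg) ((P j).inv_mem hb)
  have Θ : ∀ i j, i = i₁ ∨ i = i₂ → j = i₃ ∨ j = i₄ → ∀ a ∈ P i, ∀ b ∈ P j, ∀ c ∈ P i, c ∈ P j →
      θ (a * c) b + β a c = θ a (c * b) + β c b := by
    intro i j hi hj a ha b hb c hci hcj
    obtain ⟨m1, m2, -⟩ := mid i j hi hj a ha (c * b) ((P j).mul_mem hcj hb)
    have hg : a * (c * b) ∈ L := L.mul_mem (le i ha) (le j ((P j).mul_mem hcj hb))
    simp only [hθ, mul_assoc a c b]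
    set x := fa (a * (c * b))
    have e1 := (hβ i).cocycle x (hfa i hi _ hg) _ m1 c hci
    have e2 := (hβ j).cocycle _ m2 c hcj b hb
    rw [mul_inv_cancel_left] at e1
    rw [← mul_assoc x⁻¹ a c]
    linarith
  set Λ : Γ → Γ → ℚ := fun p g => β p (fa g) + θ (p * fa g) (fb g) with hΛ
  set R : Γ → Γ → ℚ := fun g q => β (fb g) q + θ (fa g) (fb g * q) with hR
  have L1 : ∀ i j, i = i₁ ∨ i = i₂ → j = i₃ ∨ j = i₄ → ∀ a ∈ P i, ∀ b ∈ P j, ∀ p ∈ P i,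
      Λ p (a * b) + θ a b = β p a + θ (p * a) b := by
    intro i j hi hj a ha b hb p hp
    obtain ⟨m1, m2, m3⟩ := mid i j hi hj a ha b hb
    have hg : a * b ∈ L := L.mul_mem (le i ha) (le j hb)
    have hx := hfa i hi _ hg
    have e0 : θ a b = β ((fa (a * b))⁻¹ * a) b - β (fa (a * b)) ((fa (a * b))⁻¹ * a) := rfl
    have e00 : Λ p (a * b) = β p (fa (a * b)) + θ (p * fa (a * b)) (fb (a * b)) := rfl
    rw [e0, e00, ← m3]
    set x := fa (a * b)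
    have e1 := Θ i j hi hj (p * x) ((P i).mul_mem hp hx) b hb _ m1 m2
    have e2 := (hβ i).cocycle p hp x hx _ m1
    rw [mul_assoc p, mul_inv_cancel_left] at e1
    rw [mul_inv_cancel_left] at e2
    linarith
  have R1 : ∀ i j, i = i₁ ∨ i = i₂ → j = i₃ ∨ j = i₄ → ∀ a ∈ P i, ∀ b ∈ P j, ∀ q ∈ P j,
      R (a * b) q + θ a b = β b q + θ a (b * q) := by
    intro i j hi hj a ha b hb q hq
    obtain ⟨m1, m2, m3⟩ := mid i j hi hj a ha b hb
    have hg : a * b ∈ L := L.mul_mem (le i ha) (le j hb)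
    have hx := hfa i hi _ hg
    have e0 : θ a b = β ((fa (a * b))⁻¹ * a) b - β (fa (a * b)) ((fa (a * b))⁻¹ * a) := rfl
    have e00 : R (a * b) q = β (fb (a * b)) q + θ (fa (a * b)) (fb (a * b) * q) := rfl
    rw [e0, e00, ← m3]
    set x := fa (a * b)
    have e1 := Θ i j hi hj x hx (b * q) ((P j).mul_mem hb hq) _ m1 m2
    have e2 := (hβ j).cocycle _ m2 b hb q hq
    rw [mul_inv_cancel_left] at e1
    rw [mul_assoc _ b q]
    linarith
  have LL : ∀ i, i = i₁ ∨ i = i₂ → ∀ p ∈ P i, ∀ p' ∈ P i, ∀ g ∈ L,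
      Λ p' g + Λ p (p' * g) = β p p' + Λ (p * p') g := by
    intro i hi p hp p' hp' g hg
    have hx := hfa i hi g hg
    have e1 := L1 i i₃ hi (Or.inl rfl) (p' * fa g) ((P i).mul_mem hp' hx) (fb g)
      (hfb i₃ (Or.inl rfl) g hg) p hp
    have e2 := (hβ i).cocycle p hp p' hp' _ hx
    rw [mul_assoc, hfe g hg, ← mul_assoc] at e1
    have e3 : Λ p' g = β p' (fa g) + θ (p' * fa g) (fb g) := rfl
    have e4 : Λ (p * p') g = β (p * p') (fa g) + θ (p * p' * fa g) (fb g) := rfl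
    linarith
  have RR : ∀ j, j = i₃ ∨ j = i₄ → ∀ q ∈ P j, ∀ q' ∈ P j, ∀ g ∈ L,
      R g q + R (g * q) q' = β q q' + R g (q * q') := by
    intro j hj q hq q' hq' g hg
    have hx := hfb j hj g hg
    have e1 := R1 i₁ j (Or.inl rfl) hj (fa g) (hfa i₁ (Or.inl rfl) g hg) (fb g * q)
      ((P j).mul_mem hx hq) q' hq'
    have e2 := (hβ j).cocycle _ hx q hq q' hq'
    rw [← mul_assoc, hfe g hg, mul_assoc] at e1
    have e3 : R g q = β (fb g) q + θ (fa g) (fb g * q) := rfl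
    have e4 : R g (q * q') = β (fb g) (q * q') + θ (fa g) (fb g * (q * q')) := rfl
    linarith
  have LR : ∀ i j, i = i₁ ∨ i = i₂ → j = i₃ ∨ j = i₄ → ∀ p ∈ P i, ∀ q ∈ P j, ∀ g ∈ L,
      Λ p g + R (p * g) q = R g q + Λ p (g * q) := by
    intro i j hi hj p hp q hq g hg
    have ha := hfa i hi g hg
    have hb := hfb j hj g hg
    have e1 := R1 i j hi hj _ ((P i).mul_mem hp ha) _ hb q hq
    have e2 := L1 i j hi hj _ ha _ ((P j).mul_mem hb hq) p hp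
    rw [mul_assoc, hfe g hg] at e1
    rw [← mul_assoc, hfe g hg] at e2
    have e3 : Λ p g = β p (fa g) + θ (p * fa g) (fb g) := rfl
    have e4 : R g q = β (fb g) q + θ (fa g) (fb g * q) := rfl
    linarith
  have hfac' : ∀ g, ∃ a b, g ∈ L → a ∈ P i₁ ∧ b ∈ P i₂ ∧ g = a * b := by
    intro g
    by_cases hg : g ∈ L
    · obtain ⟨a, ha, b, hb, h⟩ := hF.exists_mul h12 h13 h23 hg
      exact ⟨a, b, fun _ => ⟨ha, hb, h⟩⟩
    · exact ⟨1, 1, fun h => absurd h hg⟩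
  choose ga gb hg' using hfac'
  set M : Γ → Γ → ℚ := fun g h => Λ (gb g) h + Λ (ga g) (gb g * h) with hM
  have MR : ∀ j, j = i₃ ∨ j = i₄ → ∀ q ∈ P j, ∀ g ∈ L, ∀ k ∈ L,
      M g (k * q) + R k q = M g k + R (g * k) q := by
    intro j hj q hq g hg k hk
    obtain ⟨h1, h2, h3⟩ := hg' g hg
    have e1 := LR i₂ j (Or.inr rfl) hj _ h2 q hq k hk
    have e2 := LR i₁ j (Or.inl rfl) hj _ h1 q hq _ (L.mul_mem (le i₂ h2) hk)
    rw [← mul_assoc, ← h3, mul_assoc] at e2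
    have e3 : M g (k * q) = Λ (gb g) (k * q) + Λ (ga g) (gb g * (k * q)) := rfl
    have e4 : M g k = Λ (gb g) k + Λ (ga g) (gb g * k) := rfl
    linarith
  have const : ∀ T : Γ → ℚ, (∀ j, j = i₃ ∨ j = i₄ → ∀ q ∈ P j, ∀ k ∈ L, T (k * q) = T k) →
      ∀ k ∈ L, T k = T 1 := by
    intro T hT' k hk
    obtain ⟨a, ha, b, hb, rfl⟩ := hF.exists_mul h34 (Ne.symm h13) (Ne.symm h14) hk
    rw [hT' i₄ (Or.inr rfl) b hb a (le i₃ ha), ← one_mul a, hT' i₃ (Or.inl rfl) a ha 1 L.one_mem]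
  obtain ⟨f, hcan⟩ := exists_isCan_of_cocycle (H := L) (β := fun g h => M g h - M g 1) hT
    (by
      intro g hg h hh k hk
      have e := const (fun k => M g (h * k) + M h k - M (g * h) k) (by
        intro j hj q hq k hk
        have e1 := MR j hj q hq g hg (h * k) (L.mul_mem hh hk)
        have e2 := MR j hj q hq h hh k hk
        have e3 := MR j hj q hq (g * h) (L.mul_mem hg hh) k hk
        rw [mul_assoc] at e1 e3
        linarith) k hk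
      simp only [mul_one] at e
      linarith)
    (fun a _ => sub_self _)
  refine ⟨_, hcan, fun m hm => ?_⟩
  have hm' : (m = i₁ ∨ m = i₂) ∨ (m = i₃ ∨ m = i₄) := by tauto
  rcases hm' with hm' | hm'
  · refine (hcan.mono (le m)).eq_of_cobound (hβ m) hT (fun a => f a + Λ a 1) ?_
    intro p hp p' hp'
    have e := const (fun k => M p k - Λ p k) (by
      intro j hj q hq k hk
      have e1 := MR j hj q hq p (le m hp) k hk
      have e2 := LR m j hm' hj p hp q hq k hk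
      linarith) p' (le m hp')
    have e2 := LL m hm' p hp p' hp' 1 L.one_mem
    rw [mul_one] at e2
    linarith
  · refine (hcan.mono (le m)).eq_of_cobound (hβ m) hT (fun a => f a + R 1 a) ?_
    intro q hq q' hq'
    have e1 := MR m hm' q' hq' q (le m hq) 1 L.one_mem
    have e2 := RR m hm' q hq q' hq' 1 L.one_mem
    rw [one_mul, mul_one] at e1
    rw [one_mul] at e2
    linarith

end Vale.Agent.P192Z.Tor
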