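import Mathlib.LinearAlgebra.Matrix.Transvection
import Mathlib.Data.ZMod.Basic
import Mathlib.Algebra.Field.ZMod
import Mathlib.Algebra.CharP.Two
import Mathlib.Logic.Equiv.Fintype
import Mathlib.RingTheory.Nilpotent.Basic
import Mathlib.Tactic.NoncommRing
import Vale.Agent.P192Z.Tor.Glue

/-! Congruence groups of matrices over an augmented algebra with nil matrices. -/

namespace Vale.Agent.P192Z.Tor

open Matrix

/-- An augmented algebra over the field with two elements all of whose square matrices with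
entries in the augmentation ideal are nilpotent. -/
class NilAug (A : Type*) [Ring A] where
  eps : A →+* ZMod 2
  nil : ∀ (n : ℕ) (M : Matrix (Fin n) (Fin n) A), (∀ i j, eps (M i j) = 0) → IsNilpotent M

open NilAug

set_option linter.unusedSectionVars false

variable {A : Type*} [Ring A] [Algebra (ZMod 2) A]
variable {I J K : Type*} [Fintype I] [DecidableEq I] [Fintype J] [DecidableEq J]
  [Fintype K] [DecidableEq K]

theorem add_self_eq (a : A) : a + a = 0 := by
  have h : (2 : ZMod 2) • a = 0 := by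
    rw [show (2 : ZMod 2) = 0 from rfl, zero_smul]
  rwa [two_smul] at h

theorem neg_eq (a : A) : -a = a := neg_eq_of_add_eq_zero_left (add_self_eq a)

theorem one_add_pow_two_pow (a : A) (k : ℕ) : (1 + a) ^ 2 ^ k = 1 + a ^ 2 ^ k := by
  induction k with
  | zero => simp
  | succ k ih =>
    rw [pow_succ, pow_mul, ih, pow_mul, sq, sq, add_mul, mul_add, mul_add, one_mul, mul_one,
      one_mul, add_assoc, ← add_assoc (a ^ 2 ^ k), add_self_eq, zero_add]

theorem isOfFinOrder_one_add {a : A} (ha : IsNilpotent a) : IsOfFinOrder (1 + a) := by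
  obtain ⟨n, hn⟩ := ha
  refine isOfFinOrder_iff_pow_eq_one.mpr ⟨2 ^ n, by positivity, ?_⟩
  rw [one_add_pow_two_pow, pow_eq_zero_of_le (Nat.lt_two_pow_self).le hn, add_zero]

/-- Constant matrices. -/
def cst (A : Type*) [Ring A] [Algebra (ZMod 2) A] {I J : Type*} (c : Matrix I J (ZMod 2)) :
    Matrix I J A := c.map (algebraMap (ZMod 2) A)

omit [Fintype I] [DecidableEq I] [DecidableEq J] [Fintype K] [DecidableEq K] in
theorem cst_mul (c : Matrix I J (ZMod 2)) (d : Matrix J K (ZMod 2)) :
    cst A (c * d) = cst A c * cst A d := Matrix.map_mul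

omit [Fintype I] in
theorem cst_one : cst A (1 : Matrix I I (ZMod 2)) = 1 :=
  Matrix.map_one _ (map_zero _) (map_one _)

omit [Fintype I] [DecidableEq I] [Fintype J] [DecidableEq J] in
theorem cst_add (c d : Matrix I J (ZMod 2)) : cst A (c + d) = cst A c + cst A d := by
  ext i j
  simp [cst]

omit [Fintype I] [Fintype J] in
theorem cst_single (i : I) (j : J) (c : ZMod 2) :
    cst A (single i j c) = single i j (algebraMap (ZMod 2) A c) := by
  ext a b
  simp only [cst, map_apply, single, of_apply]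
  split_ifs <;> simp

variable [NilAug A]

theorem eps_algebraMap (c : ZMod 2) : eps (algebraMap (ZMod 2) A c) = c := by
  have : (eps.comp (algebraMap (ZMod 2) A)) = RingHom.id _ := Subsingleton.elim _ _
  exact congrArg (fun f : ZMod 2 →+* ZMod 2 => f c) this

omit [Fintype I] [DecidableEq I] [Fintype J] [DecidableEq J] in
theorem cst_map_eps (c : Matrix I J (ZMod 2)) : (cst A c).map eps = c := by
  ext i j
  simp [cst, eps_algebraMap]

omit [Algebra (ZMod 2) A] in
theorem isNilpotent_of_eps (M : Matrix I I A) (hM : ∀ i j, eps (M i j) = 0) : IsNilpotent M := by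
  have e := Fintype.equivFin I
  have h := NilAug.nil _ (Matrix.reindexRingEquiv A e M) (fun i j => hM _ _)
  simpa using h.map (Matrix.reindexRingEquiv A e).symm

theorem exists_inv_of_eps {u : A} (hu : eps u = 1) : ∃ u', u * u' = 1 ∧ u' * u = 1 := by
  have h := isNilpotent_of_eps (I := Unit) (Matrix.of fun _ _ => u - 1)
    (fun _ _ => by simp [hu])
  obtain ⟨n, hn⟩ := h
  have h1 : (u - 1) ^ n = 0 := by
    have e : ∀ k : ℕ, (Matrix.of fun _ _ : Unit => u - 1) ^ k = Matrix.of fun _ _ => (u - 1) ^ k := by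
      intro k
      induction k with
      | zero => ext; simp
      | succ k ih => rw [pow_succ, ih]; ext; simp [Matrix.mul_apply, pow_succ]
    rw [e] at hn
    exact congrFun (congrFun hn ()) ()
  have h2 : IsUnit (1 + (u - 1)) := IsNilpotent.isUnit_one_add ⟨n, h1⟩
  rw [add_sub_cancel] at h2
  obtain ⟨w, rfl⟩ := h2
  exact ⟨↑w⁻¹, w.mul_inv, w.inv_mul⟩

variable (A I) in
/-- Matrices congruent to the identity modulo the augmentation ideal. -/
def Gam : Submonoid (Matrix I I A) where
  carrier := {g | g.map eps = 1}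
  one_mem' := Matrix.map_one _ (map_zero _) (map_one _)
  mul_mem' := by
    intro g h hg hh
    simp only [Set.mem_ofPred_eq] at hg hh ⊢
    rw [Matrix.map_mul, hg, hh, mul_one]

omit [Algebra (ZMod 2) A] in
theorem mem_Gam {g : Matrix I I A} : g ∈ Gam A I ↔ g.map eps = 1 := Iff.rfl

omit [Algebra (ZMod 2) A] in
theorem mem_Gam_iff {g : Matrix I I A} :
    g ∈ Gam A I ↔ ∀ i j, eps ((g - 1) i j) = 0 := by
  rw [mem_Gam, ← Matrix.ext_iff]
  refine forall_congr' fun i => forall_congr' fun j => ?_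
  rw [Matrix.sub_apply, map_sub, sub_eq_zero, map_apply]
  by_cases h : i = j
  · subst h
    simp
  · simp [h]

omit [Algebra (ZMod 2) A] in
theorem one_add_mem_Gam {X : Matrix I I A} (hX : ∀ i j, eps (X i j) = 0) : 1 + X ∈ Gam A I := by
  rw [mem_Gam_iff, add_sub_cancel_left]
  exact hX

omit [Algebra (ZMod 2) A] in
theorem eps_of_ne (g : Gam A I) {i j : I} (h : i ≠ j) : eps (g.1 i j) = 0 := by
  have := congrFun (congrFun g.2 i) j
  rwa [map_apply, one_apply_ne h] at this

omit [Algebra (ZMod 2) A] in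
theorem eps_diag (g : Gam A I) (i : I) : eps (g.1 i i) = 1 := by
  have := congrFun (congrFun g.2 i) i
  rwa [map_apply, one_apply_eq] at this

theorem isMulTorsion_Gam_monoid : IsMulTorsion (Gam A I) := by
  intro g
  rw [← Submonoid.isOfFinOrder_coe]
  have h := isOfFinOrder_one_add (isNilpotent_of_eps _ (mem_Gam_iff.mp g.2))
  rwa [add_sub_cancel] at h

noncomputable instance : Group (Gam A I) := IsMulTorsion.group isMulTorsion_Gam_monoid

theorem isMulTorsion_Gam : IsMulTorsion (Gam A I) := isMulTorsion_Gam_monoid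

theorem coe_mul_Gam (g h : Gam A I) : (g * h).1 = g.1 * h.1 := rfl

theorem coe_one_Gam : (1 : Gam A I).1 = 1 := rfl

/-- In a torsion group every submonoid is a subgroup. -/
def subgroupOf {Γ : Type*} [Group Γ] (hT : IsMulTorsion Γ) (S : Set Γ) (h1 : (1 : Γ) ∈ S)
    (hm : ∀ a ∈ S, ∀ b ∈ S, a * b ∈ S) : Subgroup Γ where
  carrier := S
  one_mem' := h1
  mul_mem' := fun ha hb => hm _ ha _ hb
  inv_mem' := by
    intro a ha
    have hp : ∀ k : ℕ, a ^ k ∈ S := by
      intro k
      induction k with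
      | zero => simpa using h1
      | succ k ih => rw [pow_succ]; exact hm _ ih _ ha
    have : a⁻¹ = a ^ (orderOf a - 1) := by
      rw [inv_eq_iff_mul_eq_one, ← pow_succ', Nat.sub_add_cancel (hT a).orderOf_pos,
        pow_orderOf_eq_one]
    rw [this]
    exact hp _

/-- The homomorphism attached to a pair of constant matrices with `v u = 1`. -/
noncomputable def sp (u : Matrix J I (ZMod 2)) (v : Matrix I J (ZMod 2)) (h : v * u = 1) :
    Gam A I →* Gam A J where
  toFun g := ⟨1 + cst A u * (g.1 - 1) * cst A v, one_add_mem_Gam fun a b => by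
    have h1 : (cst A u * (g.1 - 1) * cst A v).map eps = 0 := by
      have h2 : (g.1 - 1).map eps = 0 := by
        ext i j
        exact mem_Gam_iff.mp g.2 i j
      rw [Matrix.map_mul, Matrix.map_mul, h2, Matrix.mul_zero, Matrix.zero_mul]
    exact congrFun (congrFun h1 a) b⟩
  map_one' := Subtype.ext (by simp)
  map_mul' g g' := Subtype.ext (by
    have h1 : cst A v * cst A u = 1 := by rw [← cst_mul, h, cst_one]
    have h2 : cst A u * (g.1 - 1) * cst A v * (cst A u * (g'.1 - 1) * cst A v) =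
        cst A u * ((g.1 - 1) * (g'.1 - 1)) * cst A v := by
      rw [Matrix.mul_assoc (cst A u * (g.1 - 1)), ← Matrix.mul_assoc (cst A v),
        ← Matrix.mul_assoc (cst A v), h1, Matrix.one_mul]
      simp only [Matrix.mul_assoc]
    have h3 : g.1 * g'.1 - 1 = (g.1 - 1) + (g'.1 - 1) + (g.1 - 1) * (g'.1 - 1) := by
      noncomm_ring
    simp only [coe_mul_Gam]
    rw [add_mul, mul_add, mul_add, h2, h3, one_mul, mul_one, one_mul, Matrix.mul_add,
      Matrix.mul_add, Matrix.add_mul, Matrix.add_mul]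
    abel)

theorem coe_sp (u : Matrix J I (ZMod 2)) (v : Matrix I J (ZMod 2)) (h : v * u = 1) (g : Gam A I) :
    (sp u v h g).1 = 1 + cst A u * (g.1 - 1) * cst A v := rfl

theorem sp_sp (u : Matrix J I (ZMod 2)) (v : Matrix I J (ZMod 2)) (h : v * u = 1)
    (u' : Matrix K J (ZMod 2)) (v' : Matrix J K (ZMod 2)) (h' : v' * u' = 1)
    (h'' : (v * v') * (u' * u) = 1) (g : Gam A I) :
    sp u' v' h' (sp u v h g) = sp (u' * u) (v * v') h'' g := by
  apply Subtype.ext
  simp only [coe_sp, add_sub_cancel_left, cst_mul, Matrix.mul_assoc]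

omit [DecidableEq K] in
theorem split_mul {u : Matrix J I (ZMod 2)} {v : Matrix I J (ZMod 2)} (h : v * u = 1)
    {u' : Matrix K J (ZMod 2)} {v' : Matrix J K (ZMod 2)} (h' : v' * u' = 1) :
    (v * v') * (u' * u) = 1 := by
  rw [Matrix.mul_assoc, ← Matrix.mul_assoc v', h', Matrix.one_mul, h]

theorem sp_one (h : (1 : Matrix I I (ZMod 2)) * 1 = 1) (g : Gam A I) : sp 1 1 h g = g := by
  apply Subtype.ext
  simp [coe_sp, cst_one]

theorem coe_sp_sq (u v : Matrix I I (ZMod 2)) (h : v * u = 1) (g : Gam A I) :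
    (sp u v h g).1 = cst A u * g.1 * cst A v := by
  have h1 : cst A u * cst A v = 1 := by rw [← cst_mul, mul_eq_one_comm.mp h, cst_one]
  rw [coe_sp, mul_sub, sub_mul, mul_one, h1, add_sub_cancel]

/-- The column matrix of an embedding. -/
def uj (j : I ↪ J) : Matrix J I (ZMod 2) := (1 : Matrix J J (ZMod 2)).submatrix id j

/-- The row matrix of an embedding. -/
def vj (j : I ↪ J) : Matrix I J (ZMod 2) := (1 : Matrix J J (ZMod 2)).submatrix j id

omit [Fintype I] in
theorem vj_mul_uj (j : I ↪ J) : vj j * uj j = 1 := by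
  ext a b
  simp [vj, uj, Matrix.mul_apply, one_apply]

omit [Fintype I] [DecidableEq I] [Fintype K] in
theorem uj_trans (j : I ↪ J) (j' : J ↪ K) : uj (j.trans j') = uj j' * uj j := by
  ext a b
  simp [uj, Matrix.mul_apply, one_apply]

omit [Fintype I] [DecidableEq I] [Fintype K] in
theorem vj_trans (j : I ↪ J) (j' : J ↪ K) : vj (j.trans j') = vj j * vj j' := by
  ext a b
  rw [Matrix.mul_apply, Finset.sum_eq_single (j a)]
  · simp [vj, one_apply]
  · intro c _ hc
    simp [vj, one_apply, Ne.symm hc]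
  · simp

/-- Extension by the identity along an embedding of index sets. -/
noncomputable def emb (j : I ↪ J) : Gam A I →* Gam A J := sp (uj j) (vj j) (vj_mul_uj j)

theorem emb_emb (j : I ↪ J) (j' : J ↪ K) (g : Gam A I) :
    emb j' (emb j g) = emb (j.trans j') g := by
  unfold emb
  rw [sp_sp _ _ _ _ _ _ (split_mul (vj_mul_uj j) (vj_mul_uj j'))]
  congr 2
  · exact (uj_trans j j').symm
  · exact (vj_trans j j').symm

theorem emb_apply (j : I ↪ J) (g : Gam A I) (a b : I) : (emb j g).1 (j a) (j b) = g.1 a b := by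
  have h1 : (cst A (uj j) * (g.1 - 1) * cst A (vj j) : Matrix J J A) (j a) (j b) =
      (g.1 - 1) a b := by
    rw [Matrix.mul_apply, Finset.sum_eq_single b, Matrix.mul_apply, Finset.sum_eq_single a]
    · simp [cst, uj, vj, one_apply]
    · intro c _ hc
      simp [cst, uj, one_apply, Ne.symm hc]
    · simp
    · intro c _ hc
      simp [cst, vj, one_apply, hc]
    · simp
  rw [emb, coe_sp, Matrix.add_apply, h1, Matrix.sub_apply]
  simp [one_apply]

theorem emb_apply_col (j : I ↪ J) (g : Gam A I) (a : J) {b : J} (hb : b ∉ Set.range j) :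
    (emb j g).1 a b = (1 : Matrix J J A) a b := by
  have : ∀ x, j x ≠ b := fun x hx => hb ⟨x, hx⟩
  simp [emb, coe_sp, cst, uj, vj, Matrix.mul_apply, one_apply, this]

theorem emb_apply_row (j : I ↪ J) (g : Gam A I) {a : J} (ha : a ∉ Set.range j) (b : J) :
    (emb j g).1 a b = (1 : Matrix J J A) a b := by
  have : ∀ x, a ≠ j x := fun x hx => ha ⟨x, hx.symm⟩
  simp [emb, coe_sp, cst, uj, vj, Matrix.mul_apply, one_apply, this]

/-- Restriction to the rows and columns in the image of an embedding. -/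
def res (j : I ↪ J) (g : Gam A J) : Gam A I :=
  ⟨g.1.submatrix j j, by
    rw [mem_Gam, ← Matrix.submatrix_map, g.2, submatrix_one _ j.injective]⟩

omit [Algebra (ZMod 2) A] in
theorem coe_res (j : I ↪ J) (g : Gam A J) : (res j g).1 = g.1.submatrix j j := rfl

theorem res_emb (j : I ↪ J) (g : Gam A I) : res j (emb j g) = g :=
  Subtype.ext (Matrix.ext fun a b => emb_apply j g a b)

omit [Algebra (ZMod 2) A] in
theorem res_res (j : I ↪ J) (j' : J ↪ K) (g : Gam A K) :
    res j (res j' g) = res (j.trans j') g := rfl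

theorem res_one (j : I ↪ J) : res j (1 : Gam A J) = 1 :=
  Subtype.ext (submatrix_one _ j.injective)

omit [DecidableEq I] [DecidableEq J] [Algebra (ZMod 2) A] [NilAug A] in
theorem submatrix_mul_of_col (j : I ↪ J) (g h : Matrix J J A)
    (hg : ∀ a, ∀ b ∉ Set.range j, g (j a) b = 0) :
    (g * h).submatrix j j = g.submatrix j j * h.submatrix j j := by
  classical
  ext a b
  simp only [submatrix_apply, Matrix.mul_apply]
  rw [← Finset.sum_map Finset.univ j fun c => g (j a) c * h c (j b)]
  refine (Finset.sum_subset (Finset.subset_univ _) fun c _ hc => ?_).symm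
  rw [hg a c (by simpa using hc), zero_mul]

/-- Columns outside the image of `j` are those of the identity matrix. -/
def ColStd {R : Type*} [Zero R] [One R] (j : I ↪ J) (g : Matrix J J R) : Prop :=
  ∀ a, ∀ b ∉ Set.range j, g a b = (1 : Matrix J J R) a b

omit [Fintype I] [DecidableEq I] [Algebra (ZMod 2) A] [NilAug A] in
theorem ColStd.mul {j : I ↪ J} {g h : Matrix J J A} (hg : ColStd j g) (hh : ColStd j h) :
    ColStd j (g * h) := by
  intro a b hb
  rw [Matrix.mul_apply, ← hg a b hb]
  simp [hh _ b hb, one_apply]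

omit [DecidableEq I] [Algebra (ZMod 2) A] [NilAug A] in
theorem ColStd.submatrix_mul {j : I ↪ J} {g : Matrix J J A} (hg : ColStd j g) (h : Matrix J J A) :
    (g * h).submatrix j j = g.submatrix j j * h.submatrix j j :=
  submatrix_mul_of_col j g h fun a b hb => by
    rw [hg _ b hb, one_apply_ne]
    rintro rfl
    exact hb ⟨a, rfl⟩

omit [Fintype I] [DecidableEq I] [Fintype J] [NilAug A] in
theorem ColStd.cst {j : I ↪ J} {u : Matrix J J (ZMod 2)} (hu : ColStd j u) :
    ColStd j (cst A u) := by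
  intro a b hb
  simp only [Tor.cst, map_apply, hu a b hb, one_apply]
  split_ifs <;> simp

/-- The parabolic subgroup of an embedding. -/
noncomputable def Par (j : I ↪ J) : Subgroup (Gam A J) :=
  subgroupOf isMulTorsion_Gam {g | ColStd j g.1} (fun _ _ _ => rfl) fun _ ha _ hb => ha.mul hb

omit [Fintype I] [DecidableEq I] in
theorem mem_Par {j : I ↪ J} {g : Gam A J} : g ∈ Par j ↔ ColStd j g.1 := Iff.rfl

theorem res_mul {j : I ↪ J} {g : Gam A J} (hg : g ∈ Par j) (h : Gam A J) :
    res j (g * h) = res j g * res j h :=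
  Subtype.ext (ColStd.submatrix_mul hg h.1)

theorem res_inv {j : I ↪ J} {g : Gam A J} (hg : g ∈ Par j) : res j g⁻¹ = (res j g)⁻¹ := by
  rw [eq_inv_iff_mul_eq_one, ← res_mul ((Par j).inv_mem hg), inv_mul_cancel, res_one]

theorem emb_mem_Par (j : I ↪ J) (g : Gam A I) : emb j g ∈ Par j :=
  fun a _ hb => emb_apply_col j g a hb

theorem res_sp {j : I ↪ J} {u v : Matrix J J (ZMod 2)} (h : v * u = 1) (hu : ColStd j u)
    (hv : ColStd j v) :
    ∃ h' : v.submatrix j j * u.submatrix j j = 1, ∀ g ∈ (Par j : Subgroup (Gam A J)),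
      sp u v h g ∈ Par j ∧ res j (sp u v h g) = sp _ _ h' (res j g) := by
  refine ⟨by rw [← hv.submatrix_mul, h, submatrix_one _ j.injective], fun g hg => ⟨?_, ?_⟩⟩
  · rw [mem_Par, coe_sp_sq]
    exact (hu.cst.mul hg).mul hv.cst
  · apply Subtype.ext
    rw [coe_res, coe_sp_sq, coe_sp_sq, (hu.cst.mul hg).submatrix_mul, hu.cst.submatrix_mul]
    rfl

/-- The unipotent radical of the parabolic subgroup. -/
noncomputable def Uni (j : I ↪ J) : Subgroup (Gam A J) :=
  subgroupOf isMulTorsion_Gam {g | g ∈ Par j ∧ res j g = 1} ⟨(Par j).one_mem, res_one j⟩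
    fun _ ha _ hb => ⟨(Par j).mul_mem ha.1 hb.1, by rw [res_mul ha.1, ha.2, hb.2, mul_one]⟩

theorem mem_Uni {j : I ↪ J} {g : Gam A J} : g ∈ Uni j ↔ g ∈ Par j ∧ res j g = 1 := Iff.rfl

theorem Uni_row {j : I ↪ J} {g : Gam A J} (hg : g ∈ Uni j) (a : I) (b : J) :
    g.1 (j a) b = (1 : Matrix J J A) (j a) b := by
  by_cases hb : b ∈ Set.range j
  · obtain ⟨b, rfl⟩ := hb
    have := congrFun (congrFun (congrArg Subtype.val hg.2) a) b
    rw [coe_res, submatrix_apply] at this
    rw [this, coe_one_Gam]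
    simp [one_apply]
  · exact hg.1 _ b hb

theorem Uni_comm {j : I ↪ J} : ∀ g ∈ (Uni j : Subgroup (Gam A J)), ∀ h ∈ Uni j,
    g * h = h * g := by
  have key : ∀ g ∈ (Uni j : Subgroup (Gam A J)), ∀ h ∈ (Uni j : Subgroup (Gam A J)),
      g.1 * h.1 = g.1 + h.1 - 1 := by
    intro g hg h hh
    have h0 : (g.1 - 1) * (h.1 - 1) = 0 := by
      ext a b
      rw [Matrix.mul_apply]
      refine Finset.sum_eq_zero fun c _ => ?_
      by_cases hc : c ∈ Set.range j
      · obtain ⟨c, rfl⟩ := hc
        rw [Matrix.sub_apply h.1, Uni_row hh, sub_self, mul_zero]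
      · rw [Matrix.sub_apply g.1, hg.1 a c hc, sub_self, zero_mul]
    have h1 : g.1 * h.1 = (g.1 - 1) * (h.1 - 1) + (g.1 + h.1 - 1) := by noncomm_ring
    rw [h1, h0, zero_add]
  intro g hg h hh
  apply Subtype.ext
  rw [coe_mul_Gam, coe_mul_Gam, key g hg h hh, key h hh g hg, add_comm]

theorem Uni_norm {j : I ↪ J} {p n : Gam A J} (hp : p ∈ Par j) (hn : n ∈ Uni j) :
    p * n * p⁻¹ ∈ Uni j := by
  refine ⟨(Par j).mul_mem ((Par j).mul_mem hp hn.1) ((Par j).inv_mem hp), ?_⟩
  rw [res_mul ((Par j).mul_mem hp hn.1), res_mul hp, hn.2, mul_one, res_inv hp, mul_inv_cancel]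

theorem lev_inv_mul_mem {j : I ↪ J} {g : Gam A J} (hg : g ∈ Par j) :
    (emb j (res j g))⁻¹ * g ∈ Uni j := by
  have h1 := (Par j).inv_mem (emb_mem_Par j (res j g))
  refine ⟨(Par j).mul_mem h1 hg, ?_⟩
  rw [res_mul h1, res_inv (emb_mem_Par j _), res_emb, inv_mul_cancel]

end Vale.Agent.P192Z.Tor
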