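import Mathlib.LinearAlgebra.Matrix.Kronecker
import Mathlib.Data.Matrix.Composition
import Mathlib.Data.Set.Finite.List
import Mathlib.Algebra.Polynomial.Eval.Defs
import Mathlib.RingTheory.Finiteness.Cardinality
import Vale.Agent.P192Z.Tor.Base

/-! The sum of an invariant canonical cocycle along a homogeneous relation vanishes. -/

namespace Vale.Agent.P192Z.Tor

open Matrix NilAug
open scoped Kronecker

set_option linter.unusedSectionVars false

variable {A : Type*} [Ring A] [Algebra (ZMod 2) A] [NilAug A]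
variable {I J K : Type*} [Fintype I] [DecidableEq I] [Fintype J] [DecidableEq J]
  [Fintype K] [DecidableEq K]

theorem prod_height (ht : J → ℕ) (w : List (Matrix J J A))
    (hw : ∀ X ∈ w, ∀ a b, X a b ≠ 0 → ht b < ht a) :
    ∀ a b, w.prod a b ≠ 0 → ht b + w.length ≤ ht a := by
  induction w with
  | nil =>
    intro a b h
    obtain rfl : a = b := by
      by_contra hab
      exact h (one_apply_ne hab)
    simp
  | cons X w ih =>
    intro a b h
    rw [List.prod_cons, Matrix.mul_apply] at h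
    obtain ⟨c, -, hc⟩ := Finset.exists_ne_zero_of_sum_ne_zero h
    have h1 := hw X List.mem_cons_self a c (left_ne_zero_of_mul hc)
    have h2 := ih (fun Y hY => hw Y (List.mem_cons_of_mem _ hY)) c b (right_ne_zero_of_mul hc)
    rw [List.length_cons]
    omega

theorem Datum.bsum_eq_zero_of_height (D : Datum A J) (ht : J → ℕ) (l : List (Gam A J))
    (hl : ∀ y ∈ l, y ∈ D.H) (hht : ∀ y ∈ l, ∀ a b, (y.1 - 1) a b ≠ 0 → ht b < ht a) :
    bsum D.β l = 0 := by
  let X : Set (Matrix J J A) := (fun y : Gam A J => y.1 - 1) '' {y | y ∈ l}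
  have hX : Finite X := (List.finite_toSet l).image _
  have hW : (Submonoid.closure X : Set (Matrix J J A)).Finite := by
    refine (((List.finite_length_le X (Finset.univ.sup ht)).image
      fun w => (w.map Subtype.val).prod).insert 0).subset fun M hM => ?_
    obtain ⟨w, hw, rfl⟩ := Submonoid.exists_list_of_mem_closure hM
    by_cases hlen : w.length ≤ Finset.univ.sup ht
    · refine Or.inr ⟨w.pmap Subtype.mk hw, by simpa using hlen, ?_⟩
      simp [List.map_pmap]
    · left
      ext a b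
      by_contra h
      have h1 := prod_height ht w (fun Y hY => by
        obtain ⟨y, hy, rfl⟩ := hw Y hY
        exact hht y hy) a b h
      have h2 : ht a ≤ Finset.univ.sup ht := Finset.le_sup (Finset.mem_univ a)
      omega
  have hA : (Algebra.adjoin (ZMod 2) X : Set (Matrix J J A)).Finite := by
    have := Module.Finite.span_of_finite (ZMod 2) hW
    have h := Module.finite_of_finite (ZMod 2)
      (M := Submodule.span (ZMod 2) (Submonoid.closure X : Set (Matrix J J A)))
    rw [← Algebra.adjoin_eq_span] at h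
    exact h
  let F : Subgroup (Gam A J) := subgroupOf isMulTorsion_Gam {g | g.1 ∈ Algebra.adjoin (ZMod 2) X}
    (Algebra.adjoin (ZMod 2) X).one_mem fun _ ha _ hb => (Algebra.adjoin (ZMod 2) X).mul_mem ha hb
  have hF : ((F ⊓ D.H : Subgroup (Gam A J)) : Set (Gam A J)).Finite :=
    (hA.preimage Subtype.val_injective.injOn).subset fun g hg => hg.1
  refine bsum_eq_zero (D.can.eq_zero_of_finite isMulTorsion_Gam inf_le_right hF) l
    fun y hy => ⟨?_, hl y hy⟩
  have := Subalgebra.add_mem _ (Subalgebra.one_mem _)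
    (Algebra.subset_adjoin (R := ZMod 2) (s := X) ⟨y, hy, rfl⟩)
  simp only [add_sub_cancel] at this
  exact this

theorem coe_emb_inl (g : Gam A I) :
    (emb (Function.Embedding.inl : I ↪ I ⊕ J) g).1 = fromBlocks g.1 0 0 1 := by
  ext (a | a) (b | b)
  · exact emb_apply Function.Embedding.inl g a b
  · rw [emb_apply_col _ _ _ (by simp)]
    simp
  · rw [emb_apply_row _ _ (by simp)]
    simp
  · rw [emb_apply_row _ _ (by simp)]
    simp [one_apply]

theorem coe_emb_inr (g : Gam A J) :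
    (emb (Function.Embedding.inr : J ↪ I ⊕ J) g).1 = fromBlocks 1 0 0 g.1 := by
  ext (a | a) (b | b)
  · rw [emb_apply_row _ _ (by simp)]
    simp [one_apply]
  · rw [emb_apply_row _ _ (by simp)]
    simp
  · rw [emb_apply_col _ _ _ (by simp)]
    simp
  · exact emb_apply Function.Embedding.inr g a b

theorem eq_fromBlocks {g : Gam A (I ⊕ J)} (hg : g.1.toBlocks₂₁ = 0) :
    g.1 = fromBlocks (res .inl g).1 g.1.toBlocks₁₂ 0 (res .inr g).1 := by
  rw [← hg]
  exact (fromBlocks_toBlocks g.1).symm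

theorem blk_mul {g h : Gam A (I ⊕ J)} (hg : g.1.toBlocks₂₁ = 0) (hh : h.1.toBlocks₂₁ = 0) :
    (g * h).1.toBlocks₂₁ = 0 ∧ res .inl (g * h) = res .inl g * res .inl h ∧
      res .inr (g * h) = res .inr g * res .inr h := by
  have e := congrArg₂ (· * ·) (eq_fromBlocks hg) (eq_fromBlocks hh)
  simp only [← coe_mul_Gam, fromBlocks_multiply] at e
  refine ⟨by rw [e]; simp, Subtype.ext ?_, Subtype.ext ?_⟩
  · change (g * h).1.toBlocks₁₁ = _
    rw [e]
    simp
  · change (g * h).1.toBlocks₂₂ = _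
    rw [e]
    simp

variable (A I J) in
/-- Block upper triangular matrices. -/
noncomputable def Blk : Subgroup (Gam A (I ⊕ J)) :=
  subgroupOf isMulTorsion_Gam {g | g.1.toBlocks₂₁ = 0} (by
    change (1 : Matrix (I ⊕ J) (I ⊕ J) A).toBlocks₂₁ = 0
    rw [← fromBlocks_one, toBlocks_fromBlocks₂₁]) fun _ ha _ hb => (blk_mul ha hb).1

theorem mem_Uni_inr {g : Gam A (I ⊕ J)} :
    g ∈ Uni .inr ↔ g ∈ Blk A I J ∧ res .inl g = 1 ∧ res .inr g = 1 := by
  constructor
  · intro h
    refine ⟨?_, Subtype.ext ?_, h.2⟩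
    · ext a b
      exact (h.1 (Sum.inr a) (Sum.inl b) (by simp)).trans (by simp)
    · ext a b
      exact (h.1 (Sum.inl a) (Sum.inl b) (by simp)).trans (by simp [one_apply])
  · rintro ⟨h1, h2, h3⟩
    refine ⟨?_, h3⟩
    rintro a (b | b) hb
    · rw [eq_fromBlocks h1, h2]
      rcases a with a | a
      · simp [one_apply]
      · simp
    · exact absurd ⟨b, rfl⟩ hb

/-- The block diagonal part. -/
noncomputable def lev (g : Gam A (I ⊕ J)) : Gam A (I ⊕ J) :=
  emb .inl (res .inl g) * emb .inr (res .inr g)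

theorem emb_comm (a : Gam A I) (b : Gam A J) :
    (emb .inl a * emb .inr b : Gam A (I ⊕ J)) = emb .inr b * emb .inl a := by
  apply Subtype.ext
  simp [coe_emb_inl, coe_emb_inr, fromBlocks_multiply]

theorem coe_lev (g : Gam A (I ⊕ J)) :
    (lev g).1 = fromBlocks (res .inl g).1 0 0 (res .inr g).1 := by
  simp [lev, coe_emb_inl, coe_emb_inr, fromBlocks_multiply]

theorem Datum.bsum_blk (D : Datum A (I ⊕ J)) (l : List (Gam A (I ⊕ J)))
    (hl : ∀ g ∈ l, g ∈ Blk A I J ∧ lev g ∈ D.H) :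
    (∀ g ∈ l, g ∈ D.H) ∧ bsum D.β l = bsum D.β (l.map lev) := by
  have b1 : ∀ g : Gam A (I ⊕ J), lev g ∈ Blk A I J ∧ res .inl (lev g) = res .inl g ∧
      res .inr (lev g) = res .inr g := by
    intro g
    refine ⟨?_, Subtype.ext ?_, Subtype.ext ?_⟩
    · change (lev g).1.toBlocks₂₁ = 0
      rw [coe_lev, toBlocks_fromBlocks₂₁]
    · change (lev g).1.toBlocks₁₁ = _
      rw [coe_lev, toBlocks_fromBlocks₁₁]
    · change (lev g).1.toBlocks₂₂ = _
      rw [coe_lev, toBlocks_fromBlocks₂₂]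
  have b2 : ∀ g ∈ Blk A I J, res .inl g⁻¹ = (res .inl g)⁻¹ ∧ res .inr g⁻¹ = (res .inr g)⁻¹ := by
    intro g hg
    obtain ⟨-, e1, e2⟩ := blk_mul ((Blk A I J).inv_mem hg) hg
    rw [inv_mul_cancel, res_one] at e1 e2
    exact ⟨eq_inv_of_mul_eq_one_left e1.symm, eq_inv_of_mul_eq_one_left e2.symm⟩
  have b3 : ∀ g ∈ Blk A I J, (lev g)⁻¹ * g ∈ Uni .inr := by
    intro g hg
    obtain ⟨e0, e1, e2⟩ := blk_mul ((Blk A I J).inv_mem (b1 g).1) hg
    refine mem_Uni_inr.mpr ⟨e0, ?_, ?_⟩
    · rw [e1, (b2 _ (b1 g).1).1, (b1 g).2.1, inv_mul_cancel]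
    · rw [e2, (b2 _ (b1 g).1).2, (b1 g).2.2, inv_mul_cancel]
  have b4 : ∀ p ∈ Blk A I J, ∀ n ∈ Uni .inr, p * n * p⁻¹ ∈ Uni .inr := by
    intro p hp n hn
    obtain ⟨n0, n1, n2⟩ := mem_Uni_inr.mp hn
    obtain ⟨e0, e1, e2⟩ := blk_mul hp n0
    obtain ⟨f0, f1, f2⟩ := blk_mul e0 ((Blk A I J).inv_mem hp)
    refine mem_Uni_inr.mpr ⟨f0, ?_, ?_⟩
    · rw [f1, e1, n1, mul_one, (b2 p hp).1, mul_inv_cancel]
    · rw [f2, e2, n2, mul_one, (b2 p hp).2, mul_inv_cancel]
  have b5 : ∀ g ∈ l, g ∈ D.H := fun g hg => by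
    simpa using D.H.mul_mem (hl g hg).2 (D.Uni_le _ (b3 g (hl g hg).1))
  have b6 : ∀ g ∈ D.H ⊓ Blk A I J, lev g ∈ D.H ⊓ Blk A I J := fun g hg =>
    ⟨by simpa using D.H.mul_mem hg.1 (D.H.inv_mem (D.Uni_le _ (b3 g hg.2))), (b1 g).1⟩
  refine ⟨b5, (bsum_map (H' := D.H ⊓ Blk A I J) lev ?_ (fun a ha b hb => ?_) (fun a ha b hb => ?_)
    l fun g hg => ⟨b5 g hg, (hl g hg).1⟩).2.symm⟩
  · rw [lev, res_one, res_one, map_one, map_one, mul_one]
  · obtain ⟨-, e1, e2⟩ := blk_mul ha.2 hb.2
    rw [lev, lev, lev, e1, e2, map_mul, map_mul, mul_assoc, mul_assoc, ← mul_assoc (emb .inr _),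
      ← emb_comm, mul_assoc]
  · have h1 := (D.can.mono (inf_le_left (b := Blk A I J))).descend isMulTorsion_Gam
      (N := Uni .inr) (le_inf (D.Uni_le _) fun _ h => (mem_Uni_inr.mp h).1) Uni_comm
      (fun p hp n hn => b4 p hp.2 n hn) (b6 a ha) (b6 b hb) (b3 a ha.2) (b3 b hb.2)
    simpa using h1.symm

variable {L : Type*}

/-- Some datum gives the value `r` to the word. -/
def Val (l : List L) (s : L → Aug A) (M : L → Matrix J J (ZMod 2)) (r : ℚ) : Prop :=
  ∃ D : Datum A J, (∀ p ∈ l, lett (M p) (s p) ∈ D.H) ∧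
    bsum D.β (l.map fun p => lett (M p) (s p)) = r

variable {l : List L} {s : L → Aug A} {r : ℚ}

theorem Extends.bsum_emb {j : I ↪ J} {D : Datum A I} {D' : Datum A J} (h : Extends j D D')
    (y : L → Gam A I) (hy : ∀ p ∈ l, y p ∈ D.H) :
    bsum D'.β (l.map fun p => emb j (y p)) = bsum D.β (l.map y) := by
  have := (bsum_map (H' := D.H) (emb j) (map_one _) (fun a _ b _ => map_mul _ a b) h.2 (l.map y)
    (by simpa using hy)).2
  rwa [List.map_map] at this

theorem Val.equiv {M : L → Matrix I I (ZMod 2)} (h : Val l s M r) (e : I ≃ J)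
    (M' : L → Matrix J J (ZMod 2)) (hM : ∀ p a b, M' p (e a) (e b) = M p a b) :
    Val l s M' r := by
  obtain ⟨D, h1, h2⟩ := h
  obtain ⟨D', hD⟩ := exists_extends_of_bijective D e.toEmbedding e.surjective
  have e1 : ∀ p, lett (M' p) (s p) = emb e.toEmbedding (lett (M p) (s p)) := by
    intro p
    apply Subtype.ext
    ext a b
    obtain ⟨a, rfl⟩ := e.surjective a
    obtain ⟨b, rfl⟩ := e.surjective b
    refine Eq.trans ?_ (emb_apply e.toEmbedding _ a b).symm
    simp [coe_lett, lt, hM, one_apply]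
  refine ⟨D', fun p hp => ?_, ?_⟩
  · rw [e1]
    exact (hD.1 _).mpr (h1 p hp)
  · simp only [e1]
    rw [hD.bsum_emb _ h1, h2]

theorem Val.conj {M : L → Matrix I I (ZMod 2)} (h : Val l s M r) {u v : Matrix I I (ZMod 2)}
    (huv : v * u = 1) : Val l s (fun p => u * M p * v) r := by
  obtain ⟨D, h1, h2⟩ := h
  refine ⟨D, fun p hp => ?_, ?_⟩
  · rw [← sp_lett u v huv]
    exact D.inv u v huv _ (h1 p hp)
  · have := (bsum_map (H' := D.H) (sp u v huv) (map_one _) (fun a _ b _ => map_mul _ a b)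
      (D.inv_β u v huv) (l.map fun p => lett (M p) (s p)) (by simpa using h1)).2
    rw [List.map_map, h2] at this
    simpa only [Function.comp_def, sp_lett] using this

theorem Val.double {M : L → Matrix I I (ZMod 2)} (h : Val l s M r) (h4 : 4 ≤ Fintype.card I)
    (W : L → Matrix I I (ZMod 2)) : Val l s (fun p => fromBlocks (M p) (W p) 0 (M p)) (2 * r) := by
  obtain ⟨D, h1, h2⟩ := h
  obtain ⟨D', hD⟩ := exists_extends D h4 (Function.Embedding.inl : I ↪ I ⊕ I)
  have hD' := hD.of_emb Function.Embedding.inr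
  have e1 : ∀ p, lev (lett (fromBlocks (M p) (W p) 0 (M p)) (s p)) =
      emb .inl (lett (M p) (s p)) * emb .inr (lett (M p) (s p)) := by
    intro p
    unfold lev
    congr 2 <;> apply Subtype.ext <;> ext a b <;> simp [coe_res, coe_lett, lt, one_apply]
  obtain ⟨q1, q2⟩ := D'.bsum_blk (l.map fun p => lett (fromBlocks (M p) (W p) 0 (M p)) (s p)) (by
    intro g hg
    obtain ⟨p, hp, rfl⟩ := List.mem_map.mp hg
    refine ⟨?_, ?_⟩
    · ext a b
      simp [toBlocks₂₁, coe_lett, lt]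
    · rw [e1]
      exact D'.H.mul_mem ((hD.1 _).mpr (h1 p hp)) ((hD'.1 _).mpr (h1 p hp)))
  refine ⟨D', fun p hp => q1 _ (List.mem_map_of_mem hp), ?_⟩
  rw [q2, List.map_map]
  simp only [Function.comp_def, e1]
  have hY : ∀ p ∈ l, emb .inl (lett (M p) (s p)) ∈ D'.H := fun p hp => (hD.1 _).mpr (h1 p hp)
  have hZ : ∀ p ∈ l, emb .inr (lett (M p) (s p)) ∈ D'.H := fun p hp => (hD'.1 _).mpr (h1 p hp)
  rw [(D'.can.bsum_shuffle isMulTorsion_Gam _ _ l hY hZ (fun p _ => emb_comm _ _)
    (List.pairwise_of_forall fun p q => (emb_comm _ _).symm)).2, hD.bsum_emb _ h1,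
    hD'.bsum_emb _ h1, h2, D'.can.eq_zero_of_comm isMulTorsion_Gam
      (D'.H.list_prod_mem (by simpa using hY)) (D'.H.list_prod_mem (by simpa using hZ))]
  · ring
  · have a1 := map_list_prod (emb (.inl : I ↪ I ⊕ I)) (l.map fun p => lett (M p) (s p))
    have a2 := map_list_prod (emb (.inr : I ↪ I ⊕ I)) (l.map fun p => lett (M p) (s p))
    rw [List.map_map] at a1 a2
    exact a1 ▸ a2 ▸ emb_comm _ _

theorem Val.cyclic {M : L → Matrix I I (ZMod 2)} (h : Val l s M r) (h4 : 4 ≤ Fintype.card I)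
    (k : ℕ) : ∃ (κ : Type) (_ : Fintype κ) (_ : DecidableEq κ) (_ : Nonempty κ)
      (C W : Matrix κ κ (ZMod 2)) (pos : κ → ℕ), (∀ a b, C a b ≠ 0 → pos a = pos b + 1) ∧
      (∀ a b, W a b ≠ 0 → pos a = 0 ∧ pos b + 1 = 2 ^ k) ∧
      Val l s (fun p => M p ⊗ₖ (C + W)) (2 ^ k * r) := by
  induction k with
  | zero =>
    refine ⟨Unit, inferInstance, inferInstance, inferInstance, 0, 1, fun _ => 0, by simp, by simp,
      ?_⟩
    rw [pow_zero, one_mul]
    exact h.equiv (Equiv.prodPUnit I).symm _ (by simp)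
  | succ k ih =>
    obtain ⟨κ, _, _, _, C, W, pos, hC, hW, hV⟩ := ih
    refine ⟨κ ⊕ κ, inferInstance, inferInstance, inferInstance, fromBlocks C 0 W C,
      fromBlocks 0 W 0 0, Sum.elim pos fun a => pos a + 2 ^ k, ?_, ?_, ?_⟩
    · rintro (a | a) (b | b) hab
      · exact hC a b hab
      · exact absurd rfl hab
      · have := hW a b hab
        simp only [Sum.elim_inl, Sum.elim_inr]
        omega
      · have := hC a b hab
        simp only [Sum.elim_inr]
        omega
    · rintro (a | a) (b | b) hab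
      · exact absurd rfl hab
      · have := hW a b hab
        simp only [Sum.elim_inl, Sum.elim_inr]
        omega
      · exact absurd rfl hab
      · exact absurd rfl hab
    · have c4 : 4 ≤ Fintype.card (I × κ) := by
        rw [Fintype.card_prod]
        exact h4.trans (Nat.le_mul_of_pos_right _ Fintype.card_pos)
      have h1 := (hV.double c4 fun p => M p ⊗ₖ W).equiv (Equiv.prodSumDistrib I κ κ).symm
        (fun p => M p ⊗ₖ fromBlocks (C + W) W 0 (C + W)) (by
          rintro p (⟨a, a'⟩ | ⟨a, a'⟩) (⟨b, b'⟩ | ⟨b, b'⟩) <;> simp)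
      have hP : fromBlocks 1 0 1 1 * fromBlocks 1 0 1 1 = (1 : Matrix (κ ⊕ κ) (κ ⊕ κ) (ZMod 2)) := by
        simp [fromBlocks_multiply, add_self_eq]
      have hP' : fromBlocks 1 0 1 1 * fromBlocks (C + W) W 0 (C + W) * fromBlocks 1 0 1 1 =
          fromBlocks C 0 W C + fromBlocks 0 W 0 0 := by
        have e1 : C + W + W = C := by rw [add_assoc, add_self_eq, add_zero]
        have e2 : W + (C + W) = C := by rw [add_comm, e1]
        have e3 : C + W + C = W := by rw [add_right_comm, add_self_eq, zero_add]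
        simp [fromBlocks_multiply, fromBlocks_add, e1, e2, e3]
      have h2 := h1.conj (u := 1 ⊗ₖ fromBlocks 1 0 1 1) (v := 1 ⊗ₖ fromBlocks 1 0 1 1)
        (by rw [← mul_kronecker_mul, hP, mul_one, one_kronecker_one])
      simp only [← mul_kronecker_mul, hP', one_mul, mul_one] at h2
      convert h2 using 1
      ring

theorem coe_lett_mul {M N : Matrix I I (ZMod 2)} (h : M * N = 0) (a b : Aug A) :
    (lett M a * lett N b).1 = 1 + (lt M a.1 + lt N b.1) := by
  rw [coe_mul_Gam, coe_lett, coe_lett, add_mul, mul_add, mul_add, lt_mul, h, lt_zero]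
  simp only [one_mul, mul_one, add_zero]
  abel

theorem lett_comm {M N : Matrix I I (ZMod 2)} (h : M * N = 0) (h' : N * M = 0) (a b : Aug A) :
    lett M a * lett N b = lett N b * lett M a :=
  Subtype.ext (by rw [coe_lett_mul h, coe_lett_mul h', add_comm (lt M a.1)])

theorem lett_add {M N : Matrix I I (ZMod 2)} (h : M * N = 0) (a : Aug A) :
    lett (M + N) a = lett M a * lett N a :=
  Subtype.ext (by rw [coe_lett_mul h, coe_lett, lt_add])

theorem Elem.mul_self {E : Matrix I I (ZMod 2)} (h : Elem E) : E * E = 0 := by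
  obtain ⟨u, v, i, j, huv, hij, rfl⟩ := h
  rw [mul_assoc, ← mul_assoc v, ← mul_assoc v, huv, one_mul, mul_assoc, ← mul_assoc (single _ _ _),
    single_mul_single_of_ne _ _ _ _ (Ne.symm hij), zero_mul, mul_zero]

theorem Elem.mem {E : Matrix I I (ZMod 2)} (h : Elem E) (D : Datum A (I × K))
    (Q : Matrix K K (ZMod 2)) (a : Aug A) : lett (E ⊗ₖ Q) a ∈ D.H := by
  obtain ⟨u, v, i, j, huv, hij, rfl⟩ := h
  have h1 : (v ⊗ₖ (1 : Matrix K K (ZMod 2))) * (u ⊗ₖ (1 : Matrix K K (ZMod 2))) = 1 := by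
    rw [← mul_kronecker_mul, huv, mul_one, one_kronecker_one]
  have h2 := D.inv _ _ h1 _ (D.one_add_mem (fun x => x.1 = i) (lett (single i j 1 ⊗ₖ Q) a)
    fun x y hxy => by
      have : ¬(i = x.1 ∧ j = y.1) := fun h => hxy ⟨h.1.symm, fun e => hij (e.symm.trans h.2.symm)⟩
      simp [coe_lett, lt, single, this])
  rwa [sp_lett, ← mul_kronecker_mul, ← mul_kronecker_mul, one_mul, mul_one] at h2

/-- The columns of a matrix which satisfy a predicate. -/
def cut (Q : Matrix K K (ZMod 2)) (P : K → Prop) [DecidablePred P] : Matrix K K (ZMod 2) :=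
  of fun a b => if P b then Q a b else 0

theorem cut_mul_cut (Q : Matrix K K (ZMod 2)) {P P' : K → Prop} [DecidablePred P]
    [DecidablePred P'] (h : ∀ c b, P c → P' b → Q c b = 0) : cut Q P * cut Q P' = 0 := by
  ext a b
  rw [Matrix.mul_apply]
  refine Finset.sum_eq_zero fun c _ => ?_
  simp only [cut, of_apply]
  split_ifs with h1 h2 <;> simp [h c b, *]

theorem lett_height (E : Matrix I I (ZMod 2)) (Q : Matrix K K (ZMod 2)) (P : K → Prop)
    [DecidablePred P] (t : Aug A) (a b : I × K) (h : ((lett (E ⊗ₖ cut Q P) t).1 - 1) a b ≠ 0) :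
    P b.2 ∧ Q a.2 b.2 ≠ 0 := by
  rw [coe_lett, add_sub_cancel_left] at h
  by_contra hcon
  apply h
  by_cases hP : P b.2
  · have : Q a.2 b.2 = 0 := by simpa [hP] using hcon
    simp [lt, cut, this]
  · simp [lt, cut, hP]

theorem bsum_eq_zero_of_local (D : Datum A (I × K)) (E : L → Matrix I I (ZMod 2))
    (hE : ∀ p ∈ l, Elem (E p)) (Q : Matrix K K (ZMod 2)) (pos : K → ℕ) (n : ℕ)
    (hn : 2 * l.length + 2 ≤ n)
    (hQ : ∀ a b, Q a b ≠ 0 → pos a = pos b + 1 ∨ (pos a = 0 ∧ pos b + 1 = n))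
    (h1 : (l.map fun p => lett (E p ⊗ₖ Q) (s p)).prod = 1) :
    bsum D.β (l.map fun p => lett (E p ⊗ₖ Q) (s p)) = 0 := by
  let Y : Fin l.length → Gam A (I × K) := fun t =>
    lett (E (l.get t) ⊗ₖ cut Q fun b => t.1 + 1 ≤ pos b ∧ pos b + t.1 + 2 ≤ n) (s (l.get t))
  let Z : Fin l.length → Gam A (I × K) := fun t =>
    lett (E (l.get t) ⊗ₖ cut Q fun b => ¬(t.1 + 1 ≤ pos b ∧ pos b + t.1 + 2 ≤ n)) (s (l.get t))
  have hE' : ∀ t, Elem (E (l.get t)) := fun t => hE _ (l.get_mem t)
  have z : ∀ t (Q₁ Q₂ : Matrix K K (ZMod 2)), E (l.get t) ⊗ₖ Q₁ * E (l.get t) ⊗ₖ Q₂ = 0 := by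
    intro t Q₁ Q₂
    rw [← mul_kronecker_mul, (hE' t).mul_self, zero_kronecker]
  have e : (l.map fun p => lett (E p ⊗ₖ Q) (s p)) =
      (List.finRange l.length).map fun t => Y t * Z t := by
    conv_lhs => rw [← List.map_get_finRange l, List.map_map]
    refine List.map_congr_left fun t _ => ?_
    simp only [Function.comp_apply, Y, Z]
    rw [← lett_add (z t _ _), ← kronecker_add]
    congr 2
    ext a b
    simp only [cut, Matrix.add_apply, of_apply]
    split_ifs <;> simp
  have hY : ∀ t, Y t ∈ D.H := fun t => (hE' t).mem D _ _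
  have hZ : ∀ t, Z t ∈ D.H := fun t => (hE' t).mem D _ _
  obtain ⟨e1, e2⟩ := D.can.bsum_shuffle isMulTorsion_Gam Y Z (List.finRange l.length)
    (fun t _ => hY t) (fun t _ => hZ t) (fun t _ => lett_comm (z t _ _) (z t _ _) _ _)
    ((List.pairwise_lt_finRange _).imp fun {t t'} htt => by
      have htt' : t.1 < t'.1 := htt
      refine lett_comm ?_ ?_ _ _
      · rw [← mul_kronecker_mul, cut_mul_cut, kronecker_zero]
        intro c b hc hb
        by_contra h
        have := hQ c b h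
        omega
      · rw [← mul_kronecker_mul, cut_mul_cut, kronecker_zero]
        intro c b hc hb
        by_contra h
        have := hQ c b h
        omega)
  rw [e] at h1 ⊢
  rw [e1] at h1
  have hY' : ∀ y ∈ (List.finRange l.length).map Y, y ∈ D.H := by simpa using hY
  have hZ' : ∀ y ∈ (List.finRange l.length).map Z, y ∈ D.H := by simpa using hZ
  rw [e2, D.bsum_eq_zero_of_height (fun x => pos x.2) _ hY',
    D.bsum_eq_zero_of_height (fun x => if l.length < pos x.2 then pos x.2 else pos x.2 + n) _ hZ',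
    D.can.eq_zero_of_comm isMulTorsion_Gam (D.H.list_prod_mem hY') (D.H.list_prod_mem hZ')]
  · simp
  · rw [h1, eq_inv_of_mul_eq_one_left h1, mul_inv_cancel]
  · intro y hy a b hab
    obtain ⟨t, -, rfl⟩ := List.mem_map.mp hy
    obtain ⟨p1, p2⟩ := lett_height _ _ _ _ a b hab
    have := hQ _ _ p2
    have := t.2
    split_ifs <;> omega
  · intro y hy a b hab
    obtain ⟨t, -, rfl⟩ := List.mem_map.mp hy
    obtain ⟨p1, p2⟩ := lett_height _ _ _ _ a b hab
    have := hQ _ _ p2
    omega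

theorem coe_list_prod (w : List (Gam A I)) : w.prod.1 = (w.map Subtype.val).prod := by
  induction w with
  | nil => rfl
  | cons y w ih => rw [List.prod_cons, List.map_cons, List.prod_cons, coe_mul_Gam, ih]

theorem prod_kronecker (θ : A →+* Polynomial A) (E : L → Matrix I I (ZMod 2))
    (hθ : ∀ p ∈ l, θ (s p).1 = Polynomial.monomial 1 (s p).1) (Q : Matrix K K (ZMod 2))
    (h1 : (l.map fun p => lett (E p) (s p)).prod = 1) :
    (l.map fun p => lett (E p ⊗ₖ Q) (s p)).prod = 1 := by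
  let ψ : A →+* Matrix K K A :=
    (Polynomial.eval₂RingHom' (Matrix.scalar K) (cst A Q) fun a => by
      ext x y
      simp [cst, Algebra.commutes]).comp θ
  let Ψ : Matrix I I A →+* Matrix (I × K) (I × K) A :=
    (compRingEquiv I K A).toRingHom.comp ψ.mapMatrix
  have hΨ : ∀ p ∈ l, Ψ (lett (E p) (s p)).1 = (lett (E p ⊗ₖ Q) (s p)).1 := by
    intro p hp
    rw [coe_lett, coe_lett, map_add, map_one]
    congr 1
    ext ⟨i, a⟩ ⟨j, b⟩
    have e1 : ψ (s p).1 a b = Q a b • (s p).1 := by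
      simp [ψ, hθ p hp, cst, Algebra.smul_def, Algebra.commutes]
    change ψ (E p i j • (s p).1) a b = (E p i j * Q a b) • (s p).1
    have : ∀ z : ZMod 2, z = 0 ∨ z = 1 := by decide
    rcases this (E p i j) with h | h <;> simp [h, e1]
  apply Subtype.ext
  have h2 := congrArg (fun g : Gam A I => Ψ g.1) h1
  simp only [coe_list_prod, coe_one_Gam, map_one, map_list_prod, List.map_map] at h2
  rw [coe_list_prod, coe_one_Gam, ← h2, List.map_map]
  congr 1
  exact List.map_congr_left fun p hp => (hΨ p hp).symm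

theorem bsum_eq_zero_of_homog (θ : A →+* Polynomial A) (D : Datum A I) (h4 : 4 ≤ Fintype.card I)
    (E : L → Matrix I I (ZMod 2)) (hE : ∀ p ∈ l, Elem (E p))
    (hθ : ∀ p ∈ l, θ (s p).1 = Polynomial.monomial 1 (s p).1)
    (h1 : (l.map fun p => lett (E p) (s p)).prod = 1) :
    bsum D.β (l.map fun p => lett (E p) (s p)) = 0 := by
  have h0 : Val l s E (bsum D.β (l.map fun p => lett (E p) (s p))) := by
    refine ⟨D, fun p hp => ?_, rfl⟩
    obtain ⟨u, v, i, j, huv, hij, e⟩ := hE p hp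
    rw [e, ← sp_lett u v huv]
    exact D.inv u v huv _ (D.elem _ i j (s p).1 hij (by rw [coe_lett, lt_single]))
  obtain ⟨κ, _, _, _, C, W, pos, hC, hW, D', -, hV⟩ := h0.cyclic h4 (2 * l.length + 2)
  rw [bsum_eq_zero_of_local D' E hE (C + W) pos _ Nat.lt_two_pow_self.le (fun a b hab => ?_)
    (prod_kronecker θ E hθ _ h1)] at hV
  · exact (mul_eq_zero.mp hV.symm).resolve_left (by positivity)
  · by_cases h : C a b = 0
    · exact Or.inr (hW a b (by simpa [h] using hab))
    · exact Or.inl (hC a b h)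

end Vale.Agent.P192Z.Tor
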