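import Vale.Agent.P192Z.Tor.Mat

/-! Invariant canonical cocycles on congruence groups extend to all larger sizes. -/

namespace Vale.Agent.P192Z.Tor

open Matrix NilAug

set_option linter.unusedSectionVars false

theorem Fact3.exists_glue_all {Γ μ : Type*} [Group Γ] {P : μ → Subgroup Γ} (hF : Fact3 P)
    (hT : IsMulTorsion Γ) {β : Γ → Γ → ℚ} (hβ : ∀ m, IsCan (P m) β) {i₁ i₂ i₃ i₄ : μ}
    (h12 : i₁ ≠ i₂) (h13 : i₁ ≠ i₃) (h23 : i₂ ≠ i₃) (h14 : i₁ ≠ i₄) (h24 : i₂ ≠ i₄)
    (h34 : i₃ ≠ i₄) :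
    ∃ B, IsCan (⨆ m, P m) B ∧ ∀ m, ∀ a ∈ P m, ∀ b ∈ P m, B a b = β a b := by
  obtain ⟨B, hB, hB'⟩ := hF.exists_glue hT hβ h12 h13 h23 h14 h24 h34
  refine ⟨B, hB, fun m => ?_⟩
  by_cases hm : m = i₁ ∨ m = i₂ ∨ m = i₃
  · exact hB' m (by tauto)
  · push Not at hm
    obtain ⟨B₂, hB₂, hB₂'⟩ :=
      hF.exists_glue hT hβ h12 h13 h23 (Ne.symm hm.1) (Ne.symm hm.2.1) (Ne.symm hm.2.2)
    have z : ∀ t, t = i₁ ∨ t = i₂ ∨ t = i₃ → ∀ a ∈ P t, ∀ b ∈ P t, B a b - B₂ a b = 0 := by
      intro t ht a ha b hb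
      rw [hB' t (by tauto) a ha b hb, hB₂' t (by tauto) a ha b hb, sub_self]
    have h := hF.eq_zero hT (hB.sub hB₂) h12 h13 h23 (z _ (by tauto)) (z _ (by tauto))
      (z _ (by tauto))
    intro a ha b hb
    rw [← hB₂' m (by tauto) a ha b hb]
    exact sub_eq_zero.mp (h a (le_iSup P m ha) b (le_iSup P m hb))

theorem exists_notMem_of_card_lt {J : Type*} [Fintype J] [DecidableEq J] (s : Finset J)
    (h : s.card < Fintype.card J) : ∃ m, m ∉ s := by
  by_contra hcon
  push Not at hcon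
  rw [Finset.eq_univ_iff_forall.mpr hcon, Finset.card_univ] at h
  exact lt_irrefl _ h

variable {A : Type*} [Ring A] [Algebra (ZMod 2) A] [NilAug A]
variable {I J K : Type*} [Fintype I] [DecidableEq I] [Fintype J] [DecidableEq J]
  [Fintype K] [DecidableEq K]

variable (A I) in
/-- A subgroup containing the elementary matrices with a canonical cocycle, both invariant under
conjugation by constant matrices. -/
structure Datum where
  H : Subgroup (Gam A I)
  β : Gam A I → Gam A I → ℚ
  can : IsCan H β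
  elem : ∀ (g : Gam A I) (i j : I) (r : A), i ≠ j → g.1 = 1 + single i j r → g ∈ H
  inv : ∀ u v (h : v * u = 1), ∀ g ∈ H, sp u v h g ∈ H
  inv_β : ∀ u v (h : v * u = 1), ∀ g ∈ H, ∀ g' ∈ H, β (sp u v h g) (sp u v h g') = β g g'

namespace Datum

variable (D : Datum A J)

theorem one_add_mem (T : J → Prop) (g : Gam A J)
    (hg : ∀ a b, ¬(T a ∧ ¬T b) → g.1 a b = (1 : Matrix J J A) a b) : g ∈ D.H := by
  classical
  have key : ∀ s : Finset (J × J), ∀ g : Gam A J,
      (∀ a b, ¬(T a ∧ ¬T b) ∨ (a, b) ∉ s → g.1 a b = (1 : Matrix J J A) a b) → g ∈ D.H := by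
    intro s
    induction s using Finset.induction_on with
    | empty =>
      intro g hg
      have : g = 1 := Subtype.ext (Matrix.ext fun a b => hg a b (Or.inr (by simp)))
      rw [this]
      exact D.H.one_mem
    | insert p s hp ih =>
      intro g hg
      obtain ⟨a₀, b₀⟩ := p
      by_cases hT : T a₀ ∧ ¬T b₀
      · have hne : a₀ ≠ b₀ := fun e => hT.2 (e ▸ hT.1)
        have hr : eps (g.1 a₀ b₀) = 0 := eps_of_ne g hne
        have hs : ∀ i j, eps ((single a₀ b₀ (g.1 a₀ b₀)) i j) = 0 := by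
          intro i j
          simp only [single, of_apply]
          split_ifs <;> simp [hr]
        let e : Gam A J := ⟨1 + single a₀ b₀ (g.1 a₀ b₀), one_add_mem_Gam hs⟩
        let g' : Gam A J := ⟨g.1 - single a₀ b₀ (g.1 a₀ b₀), by
          rw [mem_Gam_iff]
          intro i j
          rw [sub_right_comm, Matrix.sub_apply, map_sub, mem_Gam_iff.mp g.2, hs, sub_zero]⟩
        have hg' : g' ∈ D.H := by
          apply ih
          intro a b hab
          by_cases h : a₀ = a ∧ b₀ = b
          · obtain ⟨rfl, rfl⟩ := h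
            simp [g', one_apply_ne hne]
          · have h1 : g.1 a b = (1 : Matrix J J A) a b := by
              apply hg
              rcases hab with hab | hab
              · exact Or.inl hab
              · right
                rw [Finset.mem_insert, not_or]
                exact ⟨fun e => h ⟨(Prod.mk.inj e).1.symm, (Prod.mk.inj e).2.symm⟩, hab⟩
            simp only [g', Matrix.sub_apply, h1, single, of_apply, if_neg h, sub_zero]
        have hmul : g = e * g' := by
          apply Subtype.ext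
          have h1 : single a₀ b₀ (g.1 a₀ b₀) * g'.1 = single a₀ b₀ (g.1 a₀ b₀) := by
            ext x y
            by_cases hx : x = a₀
            · subst hx
              rw [single_mul_apply_same]
              have h2 : g'.1 b₀ y = (1 : Matrix J J A) b₀ y := by
                have h3 := hg b₀ y (Or.inl fun h => hT.2 h.1)
                simp [g', h3, single, hne]
              rw [h2]
              simp only [single, one_apply, of_apply, true_and]
              split_ifs <;> simp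
            · rw [single_mul_apply_of_ne _ _ _ _ _ hx]
              simp [single, Ne.symm hx]
          rw [coe_mul_Gam, add_mul, one_mul, h1]
          simp [g']
        rw [hmul]
        exact D.H.mul_mem (D.elem e a₀ b₀ _ hne rfl) hg'
      · apply ih
        intro a b hab
        apply hg
        rcases hab with hab | hab
        · exact Or.inl hab
        · by_cases h : (a, b) = (a₀, b₀)
          · obtain ⟨rfl, rfl⟩ := Prod.mk.inj h
            exact Or.inl hT
          · right
            rw [Finset.mem_insert, not_or]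
            exact ⟨h, hab⟩
  exact key Finset.univ g fun a b h => hg a b (by simpa using h)

theorem Uni_le (j : I ↪ J) : Uni j ≤ D.H := by
  intro g hg
  refine D.one_add_mem (· ∉ Set.range j) g fun a b hab => ?_
  by_cases ha : a ∈ Set.range j
  · obtain ⟨a, rfl⟩ := ha
    exact Uni_row hg a b
  · exact hg.1 a b fun hb => hab ⟨ha, not_not.mpr hb⟩

theorem par_mem_iff {j : I ↪ J} {g : Gam A J} (hg : g ∈ Par j) :
    g ∈ D.H ↔ emb j (res j g) ∈ D.H := by
  have h := D.Uni_le j (lev_inv_mul_mem hg)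
  constructor
  · intro h1
    have := D.H.mul_mem h1 (D.H.inv_mem h)
    simpa using this
  · intro h1
    simpa using D.H.mul_mem h1 h

theorem par_β {j : I ↪ J} {g h : Gam A J} (hg : g ∈ Par j) (hh : h ∈ Par j) (hg' : g ∈ D.H)
    (hh' : h ∈ D.H) : D.β g h = D.β (emb j (res j g)) (emb j (res j h)) := by
  have h1 := (D.can.mono (inf_le_left (b := Par j))).descend isMulTorsion_Gam (N := Uni j)
    (le_inf (D.Uni_le j) fun _ h => h.1) Uni_comm (fun p hp n hn => Uni_norm hp.2 hn)
    ⟨(D.par_mem_iff hg).mp hg', emb_mem_Par j _⟩ ⟨(D.par_mem_iff hh).mp hh', emb_mem_Par j _⟩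
    (lev_inv_mul_mem hg) (lev_inv_mul_mem hh)
  simpa using h1

theorem exists_emb_eq (j j' : I ↪ J) : ∃ (u v : Matrix J J (ZMod 2)) (h : v * u = 1),
    ∀ g : Gam A I, emb j' g = sp u v h (emb j g) := by
  obtain ⟨σ, hσ⟩ := Equiv.Perm.exists_extending_pair j j' j.injective j'.injective
  refine ⟨_, _, vj_mul_uj σ.toEmbedding, fun g => ?_⟩
  have : j' = j.trans σ.toEmbedding := Function.Embedding.ext fun a => (hσ a).symm
  rw [this, ← emb_emb]
  rfl

theorem ind_mem (j j' : I ↪ J) {g : Gam A I} (hg : emb j g ∈ D.H) : emb j' g ∈ D.H := by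
  obtain ⟨u, v, h, e⟩ := exists_emb_eq (A := A) j j'
  rw [e]
  exact D.inv u v h _ hg

theorem ind_β (j j' : I ↪ J) {g h : Gam A I} (hg : emb j g ∈ D.H) (hh : emb j h ∈ D.H) :
    D.β (emb j' g) (emb j' h) = D.β (emb j g) (emb j h) := by
  obtain ⟨u, v, h', e⟩ := exists_emb_eq (A := A) j j'
  rw [e, e]
  exact D.inv_β u v h' _ hg _ hh

theorem rank_one_mem (g : Gam A J) {j m : J} (hjm : j ≠ m) {r : A} (hr : eps r = 0)
    (hg : g.1 = 1 + (single j j r + single j m r + single m j r + single m m r)) :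
    g ∈ D.H := by
  have hs : ∀ a b, eps ((single j m r) a b) = 0 := by
    intro a b
    simp only [single, of_apply]
    split_ifs <;> simp [hr]
  have hc : (1 + single m j (1 : ZMod 2)) * (1 + single m j (1 : ZMod 2)) = 1 := by
    rw [add_mul, one_mul, mul_add, mul_one, single_mul_single_of_ne _ _ _ _ hjm, add_zero,
      add_assoc, add_self_eq, add_zero]
  have h1 := D.inv _ _ hc _ (D.elem ⟨1 + single j m r, one_add_mem_Gam hs⟩ j m r hjm rfl)
  convert h1 using 1
  apply Subtype.ext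
  rw [coe_sp, hg, cst_add, cst_one, cst_single, map_one, add_sub_cancel_left]
  simp only [add_mul, mul_add, one_mul, mul_one, single_mul_single_same]
  abel

end Datum

/-- The datum `D'` extends the datum `D` along `j`. -/
def Extends (j : I ↪ J) (D : Datum A I) (D' : Datum A J) : Prop :=
  (∀ g, emb j g ∈ D'.H ↔ g ∈ D.H) ∧
    ∀ g ∈ D.H, ∀ h ∈ D.H, D'.β (emb j g) (emb j h) = D.β g h

theorem Extends.of_emb {j : I ↪ J} {D : Datum A I} {D' : Datum A J} (h : Extends j D D')
    (j' : I ↪ J) : Extends j' D D' := by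
  refine ⟨fun g => ⟨fun hg => (h.1 g).mp (D'.ind_mem j' j hg), fun hg =>
    D'.ind_mem j j' ((h.1 g).mpr hg)⟩, fun g hg g' hg' => ?_⟩
  rw [D'.ind_β j j' ((h.1 g).mpr hg) ((h.1 g').mpr hg'), h.2 g hg g' hg']

theorem Extends.trans {j : I ↪ J} {j' : J ↪ K} {D : Datum A I} {D' : Datum A J} {D'' : Datum A K}
    (h : Extends j D D') (h' : Extends j' D' D'') : Extends (j.trans j') D D'' := by
  refine ⟨fun g => by rw [← emb_emb, h'.1, h.1], fun g hg g' hg' => ?_⟩
  rw [← emb_emb, ← emb_emb, h'.2 _ ((h.1 g).mpr hg) _ ((h.1 g').mpr hg'), h.2 g hg g' hg']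

theorem submatrix_single (j : I ↪ J) (a b : I) (r : A) :
    (single (j a) (j b) r).submatrix j j = single a b r := by
  ext x y
  simp [single]

/-- The part of a parabolic subgroup cut out by a datum on the smaller index set. -/
noncomputable def parD (D : Datum A I) (j : I ↪ J) : Subgroup (Gam A J) :=
  subgroupOf isMulTorsion_Gam {g | g ∈ Par j ∧ res j g ∈ D.H}
    ⟨(Par j).one_mem, by rw [res_one]; exact D.H.one_mem⟩
    fun _ ha _ hb => ⟨(Par j).mul_mem ha.1 hb.1, by
      rw [res_mul ha.1]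
      exact D.H.mul_mem ha.2 hb.2⟩

theorem mem_parD {D : Datum A I} {j : I ↪ J} {g : Gam A J} :
    g ∈ parD D j ↔ g ∈ Par j ∧ res j g ∈ D.H := Iff.rfl

theorem isCan_parD (D : Datum A I) (j : I ↪ J) :
    IsCan (parD D j) fun g h => D.β (res j g) (res j h) :=
  D.can.comap (res j) (fun _ h => h.2) fun _ ha b _ => res_mul ha.1 b

theorem sp_parD (D : Datum A I) {j : I ↪ J} {u v : Matrix J J (ZMod 2)} (h : v * u = 1)
    (hu : ColStd j u) (hv : ColStd j v) :
    (∀ g ∈ parD D j, sp u v h g ∈ parD D j) ∧ ∀ g ∈ parD D j, ∀ g' ∈ parD D j,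
      D.β (res j (sp u v h g)) (res j (sp u v h g')) = D.β (res j g) (res j g') := by
  obtain ⟨h', e⟩ := res_sp (A := A) h hu hv
  refine ⟨fun g hg => ⟨(e g hg.1).1, ?_⟩, fun g hg g' hg' => ?_⟩
  · rw [(e g hg.1).2]
    exact D.inv _ _ _ _ hg.2
  · rw [(e g hg.1).2, (e g' hg'.1).2]
    exact D.inv_β _ _ _ _ hg.2 _ hg'.2

theorem mem_parD_of_supp (D : Datum A I) (j : I ↪ J) (T : J → Prop) (g : Gam A J)
    (hg : ∀ a b, ¬(T a ∧ ¬T b) → g.1 a b = (1 : Matrix J J A) a b) (hp : g ∈ Par j) :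
    g ∈ parD D j := by
  refine ⟨hp, D.one_add_mem (fun a => T (j a)) _ fun a b hab => ?_⟩
  rw [coe_res, submatrix_apply, hg _ _ hab]
  simp [one_apply]

theorem exists_extends_of_bijective (D : Datum A I) (j : I ↪ J) (hj : Function.Surjective j) :
    ∃ D' : Datum A J, Extends j D D' := by
  have hc : ∀ {R : Type _} [Zero R] [One R] (g : Matrix J J R), ColStd j g :=
    fun g a b hb => absurd (hj b) hb
  have hc' : ∀ (g : Matrix J J (ZMod 2)), ColStd j g := fun g a b hb => absurd (hj b) hb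
  refine ⟨⟨parD D j, fun g h => D.β (res j g) (res j h), isCan_parD D j, ?_, ?_, ?_⟩, ?_, ?_⟩
  · intro g a b r hab hg
    obtain ⟨a, rfl⟩ := hj a
    obtain ⟨b, rfl⟩ := hj b
    refine ⟨hc _, D.elem _ a b r (fun e => hab (congrArg j e)) ?_⟩
    rw [coe_res, hg, submatrix_add, Pi.add_apply, Pi.add_apply, submatrix_one _ j.injective,
      submatrix_single]
  · exact fun u v h => (sp_parD D h (hc' u) (hc' v)).1
  · exact fun u v h => (sp_parD D h (hc' u) (hc' v)).2
  · intro g
    change emb j g ∈ parD D j ↔ _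
    rw [mem_parD, res_emb]
    exact ⟨fun h => h.2, fun h => ⟨hc _, h⟩⟩
  · intro g _ h _
    change D.β (res j (emb j g)) (res j (emb j h)) = _
    rw [res_emb, res_emb]

/-- Two parabolic data agree on the intersection. -/
theorem parD_consistent (D : Datum A I) {j j' : I ↪ J} {i k : J}
    (hj : ∀ x, x ∈ Set.range j ↔ x ≠ i) (hj' : ∀ x, x ∈ Set.range j' ↔ x ≠ k) :
    (∀ g ∈ parD D j, g ∈ Par j' → g ∈ parD D j') ∧
      ∀ g ∈ parD D j, g ∈ Par j' → ∀ h ∈ parD D j, h ∈ Par j' →
        D.β (res j g) (res j h) = D.β (res j' g) (res j' h) := by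
  classical
  let S := {x : J // x ≠ i ∧ x ≠ k}
  have ex : ∀ x : S, ∃ a, j a = x.1 := fun x => (hj x.1).mpr x.2.1
  have ex' : ∀ x : S, ∃ a, j' a = x.1 := fun x => (hj' x.1).mpr x.2.2
  choose q hq using ex
  choose q' hq' using ex'
  let Q : S ↪ I := ⟨q, fun x y h => Subtype.ext (by rw [← hq, ← hq, h])⟩
  let Q' : S ↪ I := ⟨q', fun x y h => Subtype.ext (by rw [← hq', ← hq', h])⟩
  have eQ : Q.trans j = Q'.trans j' :=
    Function.Embedding.ext fun x => (hq x).trans (hq' x).symm
  have p1 : ∀ g : Gam A J, g ∈ Par j' → res j g ∈ Par Q := by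
    intro g hg a b hb
    have h1 : j b ∉ Set.range j' := by
      rw [hj', not_not]
      by_contra hk
      exact hb ⟨⟨j b, (hj _).mp ⟨b, rfl⟩, hk⟩, j.injective (hq _)⟩
    rw [coe_res, submatrix_apply, hg _ _ h1]
    simp [one_apply]
  have p2 : ∀ g : Gam A J, g ∈ Par j → res j' g ∈ Par Q' := by
    intro g hg a b hb
    have h1 : j' b ∉ Set.range j := by
      rw [hj, not_not]
      by_contra hk
      exact hb ⟨⟨j' b, hk, (hj' _).mp ⟨b, rfl⟩⟩, j'.injective (hq' _)⟩
    rw [coe_res, submatrix_apply, hg _ _ h1]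
    simp [one_apply]
  have rr : ∀ g : Gam A J, res Q' (res j' g) = res Q (res j g) := fun g => by
    rw [res_res, res_res, eQ]
  have m1 : ∀ g ∈ parD D j, g ∈ Par j' → g ∈ parD D j' := by
    intro g hg hg'
    refine ⟨hg', (D.par_mem_iff (p2 g hg.1)).mpr ?_⟩
    rw [rr]
    exact D.ind_mem Q Q' ((D.par_mem_iff (p1 g hg')).mp hg.2)
  refine ⟨m1, fun g hg hg' h hh hh' => ?_⟩
  rw [D.par_β (p1 g hg') (p1 h hh') hg.2 hh.2,
    D.par_β (p2 g hg.1) (p2 h hh.1) (m1 g hg hg').2 (m1 h hh hh').2, rr, rr]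
  exact (D.ind_β Q Q' ((D.par_mem_iff (p1 g hg')).mp hg.2)
    ((D.par_mem_iff (p1 h hh')).mp hh.2)).symm

end Vale.Agent.P192Z.Tor
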